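import Vale.Agent.P057.LatCount

namespace Vale.Agent.P057

open Finset

open Classical in
noncomputable def NN {q : ℕ} [NeZero q] (ε : ℝ) (v : ZMod q) : ℕ :=
  (univ.filter (fun w : ZMod q => Reg ε (X v) (TT v w))).card

theorem one_interval {q : ℕ} [NeZero q] (ε : ℝ) (v : ZMod q) (A B : ℝ) (hA : 0 ≤ A) (hB : B ≤ 1)
    (h : ∀ t, A ≤ t → t < B → Reg ε (X v) t) :
    (q : ℝ) * (B - A) - 1 ≤ (NN ε v : ℝ) := by
  classical
  refine le_trans (count_interval (X v / 3) A B hA hB) ?_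
  unfold NN
  have : (univ.filter (fun w : ZMod q => A ≤ Int.fract (X w - X v / 3) ∧
      Int.fract (X w - X v / 3) < B)) ⊆ univ.filter (fun w : ZMod q => Reg ε (X v) (TT v w)) := by
    intro w hw
    rw [Finset.mem_filter] at hw ⊢
    exact ⟨hw.1, h _ hw.2.1 hw.2.2⟩
  have h1 := Finset.card_le_card this
  exact_mod_cast h1

theorem two_interval {q : ℕ} [NeZero q] (ε : ℝ) (v : ZMod q) (A B A' B' : ℝ)
    (hA : 0 ≤ A) (hB : B ≤ 1 / 2) (hA' : 1 / 2 ≤ A') (hB' : B' ≤ 1)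
    (h : ∀ t, A ≤ t → t < B → Reg ε (X v) t) (h' : ∀ t, A' ≤ t → t < B' → Reg ε (X v) t) :
    (q : ℝ) * ((B - A) + (B' - A')) - 2 ≤ (NN ε v : ℝ) := by
  classical
  have h1 := count_interval (q := q) (X v / 3) A B hA (by linarith)
  have h2 := count_interval (q := q) (X v / 3) A' B' (by linarith) hB'
  unfold NN
  set F1 := univ.filter (fun w : ZMod q => A ≤ Int.fract (X w - X v / 3) ∧
      Int.fract (X w - X v / 3) < B) with hF1
  set F2 := univ.filter (fun w : ZMod q => A' ≤ Int.fract (X w - X v / 3) ∧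
      Int.fract (X w - X v / 3) < B') with hF2
  have hd : Disjoint F1 F2 := by
    rw [Finset.disjoint_left]
    intro w hw1 hw2
    rw [hF1, Finset.mem_filter] at hw1
    rw [hF2, Finset.mem_filter] at hw2
    linarith [hw1.2.2, hw2.2.1]
  have hs : F1 ∪ F2 ⊆ univ.filter (fun w : ZMod q => Reg ε (X v) (TT v w)) := by
    intro w hw
    rw [Finset.mem_union] at hw
    rw [Finset.mem_filter]
    rcases hw with hw | hw
    · rw [hF1, Finset.mem_filter] at hw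
      exact ⟨hw.1, h _ hw.2.1 hw.2.2⟩
    · rw [hF2, Finset.mem_filter] at hw
      exact ⟨hw.1, h' _ hw.2.1 hw.2.2⟩
  have h3 := Finset.card_le_card hs
  rw [Finset.card_union_of_disjoint hd] at h3
  have h4 : (F1.card : ℝ) + F2.card ≤
      ((univ.filter (fun w : ZMod q => Reg ε (X v) (TT v w))).card : ℝ) := by exact_mod_cast h3
  linarith

section slices

variable {q : ℕ} [NeZero q] {ε : ℝ} (v : ZMod q)

theorem N1 (hε1 : ε ≤ 1 / 20) (h0 : 0 ≤ X v) (h1 : X v < 2 / 5) :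
    (q : ℝ) * (1 / 18 + 10 / 9 * X v) - 2 ≤ (NN ε v : ℝ) := by
  have := one_interval ε v 0 (1 / 18 + 10 / 9 * X v) le_rfl (by linarith) (by
    intro t h2 h3
    left
    exact ⟨h0, by linarith, h2, by linarith, h3⟩)
  linarith

theorem N2 (h0 : 2 / 5 ≤ X v) (h1 : X v < 1 / 2 - ε) :
    (q : ℝ) * (1 / 2 + 0 * X v) - 2 ≤ (NN ε v : ℝ) := by
  have := one_interval ε v 0 (1 / 2) le_rfl (by norm_num) (by
    intro t h2 h3
    left
    exact ⟨by linarith, by linarith, h2, by linarith, by linarith⟩)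
  linarith

theorem N3 (hε : 0 < ε) (hε1 : ε ≤ 1 / 20) (h0 : 1 / 2 ≤ X v) (h1 : X v < 11 / 20) :
    (q : ℝ) * ((-1 / 9 - ε) + 10 / 9 * X v) - 2 ≤ (NN ε v : ℝ) := by
  have := two_interval ε v 0 (1 / 3) (1 / 2) (1 / 2 + ((1 + 10 * (X v - 1 / 2)) / 9 - ε))
    le_rfl (by norm_num) le_rfl (by linarith) (by
      intro t h2 h3
      right; left
      exact ⟨by linarith, by linarith, h2, by linarith, by linarith⟩) (by
      intro t h2 h3
      right; right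
      exact ⟨by linarith, by linarith, h2, by linarith, by linarith, by linarith,
        Or.inl (by linarith)⟩)
  refine le_trans (le_of_eq ?_) this
  ring

theorem N4 (hε : 0 < ε) (hε1 : ε ≤ 1 / 20) (h0 : 11 / 20 ≤ X v) (h1 : X v < 13 / 20) :
    (q : ℝ) * ((1 / 2 - ε) + 0 * X v) - 2 ≤ (NN ε v : ℝ) := by
  by_cases hc : X v < 3 / 5
  · have := two_interval ε v 0 (1 / 3) (1 / 2) (1 / 2 + (1 / 6 - ε))
      le_rfl (by norm_num) le_rfl (by linarith) (by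
        intro t h2 h3
        right; left
        exact ⟨by linarith, by linarith, h2, by linarith, by linarith⟩) (by
        intro t h2 h3
        right; right
        exact ⟨by linarith, by linarith, h2, by linarith, by linarith, by linarith,
          Or.inl (by linarith)⟩)
    refine le_trans (le_of_eq ?_) this
    ring
  · rw [not_lt] at hc
    have := two_interval ε v ((10 * (X v - 1 / 2) - 1) / 9) (1 / 3)
      (1 / 2 + ((10 * (X v - 1 / 2) - 1) / 9))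
      (1 / 2 + (1 / 6 - ε + 2 * ((10 * (X v - 1 / 2) - 1) / 9)))
      (by linarith) (by norm_num) (by linarith) (by linarith) (by
        intro t h2 h3
        right; left
        exact ⟨by linarith, by linarith, by linarith, by linarith, by linarith⟩) (by
        intro t h2 h3
        right; right
        exact ⟨by linarith, by linarith, by linarith, by linarith, by linarith, by linarith,
          Or.inr (by linarith)⟩)
    refine le_trans (le_of_eq ?_) this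
    ring

theorem N5 (hε : 0 < ε) (hε1 : ε ≤ 1 / 20) (h0 : 13 / 20 ≤ X v) (h1 : X v < 7 / 10) :
    (q : ℝ) * ((11 / 9 - ε) + (-10 / 9) * X v) - 2 ≤ (NN ε v : ℝ) := by
  have := two_interval ε v ((10 * (X v - 1 / 2) - 1) / 9) (1 / 3)
    (1 / 2 + ((10 * (X v - 1 / 2) - 1) / 9))
    (1 / 2 + ((1 + 10 * (X v - 1 / 2)) / 9 - ε))
    (by linarith) (by norm_num) (by linarith) (by linarith) (by
      intro t h2 h3
      right; left
      exact ⟨by linarith, by linarith, by linarith, by linarith, by linarith⟩) (by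
      intro t h2 h3
      right; right
      exact ⟨by linarith, by linarith, by linarith, by linarith, by linarith, by linarith,
        Or.inr (by linarith)⟩)
  refine le_trans (le_of_eq ?_) this
  ring

theorem N6 (hε : 0 < ε) (hε1 : ε ≤ 1 / 20) (h0 : 7 / 10 ≤ X v) (h1 : X v < 9 / 10) :
    (q : ℝ) * ((2 - ε) + (-20 / 9) * X v) - 2 ≤ (NN ε v : ℝ) := by
  have := two_interval ε v ((10 * (X v - 1 / 2) - 1) / 9) (1 / 3)
    (1 / 2 + ((10 * (X v - 1 / 2) - 1) / 9))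
    (1 / 2 + (1 / 3 - ε))
    (by linarith) (by norm_num) (by linarith) (by linarith) (by
      intro t h2 h3
      right; left
      exact ⟨by linarith, by linarith, by linarith, by linarith, by linarith⟩) (by
      intro t h2 h3
      right; right
      exact ⟨by linarith, by linarith, by linarith, by linarith, by linarith, by linarith,
        Or.inr (by linarith)⟩)
  refine le_trans (le_of_eq ?_) this
  ring

end slices

theorem X_nat {q : ℕ} [NeZero q] {j : ℕ} (hj : j < q) : X ((j : ℕ) : ZMod q) = (j : ℝ) / q := by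
  simp only [X]
  rw [ZMod.val_natCast_of_lt hj]

theorem piece {q : ℕ} [NeZero q] (ε a b c0 c1 : ℝ) (ha : 0 ≤ a) (hab : a ≤ b) (hb : b ≤ 1)
    (h : ∀ v : ZMod q, a ≤ X v → X v < b → (q : ℝ) * (c0 + c1 * X v) - 2 ≤ (NN ε v : ℝ)) :
    (q : ℝ) ^ 2 * ((b - a) * c0 + (b ^ 2 - a ^ 2) / 2 * c1) - (|c0| + 2 * |c1| + 2) * q ≤
      ∑ j ∈ Finset.Ico ⌈a * q⌉₊ ⌈b * q⌉₊, (NN ε ((j : ℕ) : ZMod q) : ℝ) := by
  have hq : (0 : ℝ) < q := by exact_mod_cast Nat.pos_of_ne_zero (NeZero.ne q)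
  have hq0 : 0 < q := Nat.pos_of_ne_zero (NeZero.ne q)
  have hbq : ⌈b * (q : ℝ)⌉₊ ≤ q := by
    apply Nat.ceil_le.mpr
    nlinarith
  have h1 : ∀ j ∈ Finset.Ico ⌈a * (q : ℝ)⌉₊ ⌈b * (q : ℝ)⌉₊,
      (q : ℝ) * (c0 + c1 * ((j : ℝ) / q)) - 2 ≤ (NN ε ((j : ℕ) : ZMod q) : ℝ) := by
    intro j hj
    rw [Finset.mem_Ico] at hj
    have hjq : j < q := lt_of_lt_of_le hj.2 hbq
    have e := X_nat (q := q) hjq
    rw [← e]
    apply h
    · rw [e, le_div_iff₀ hq]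
      exact Nat.ceil_le.mp hj.1
    · rw [e, div_lt_iff₀ hq]
      exact Nat.lt_ceil.mp hj.2
  have h2 := Finset.sum_le_sum h1
  refine le_trans ?_ h2
  rw [Finset.sum_sub_distrib, ← Finset.mul_sum, Finset.sum_const, nsmul_eq_mul, Nat.card_Ico]
  have h3 := sum_lin q hq0 a b c0 c1 ha hab hb
  have h4 : ((⌈b * (q : ℝ)⌉₊ - ⌈a * (q : ℝ)⌉₊ : ℕ) : ℝ) ≤ q := by
    have : ⌈b * (q : ℝ)⌉₊ - ⌈a * (q : ℝ)⌉₊ ≤ q := by omega
    exact_mod_cast this
  have h5 := mul_le_mul_of_nonneg_left h3 hq.le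
  nlinarith

theorem area_arith {q ε : ℝ} (hε : 0 < ε) (hq : 0 < q) :
    (109 / 360 - ε) * q ^ 2 - 40 * q ≤ 
      (q ^ 2 * ((2 / 5 - 0) * (1 / 18) + ((2 / 5) ^ 2 - 0 ^ 2) / 2 * (10 / 9)) -
        (1 / 18 + 2 * (10 / 9) + 2) * q) +
      (q ^ 2 * ((1 / 2 - ε - 2 / 5) * (1 / 2) + ((1 / 2 - ε) ^ 2 - (2 / 5) ^ 2) / 2 * 0) -
        (1 / 2 + 2 * 0 + 2) * q) +
      (q ^ 2 * ((11 / 20 - 1 / 2) * (-1 / 9 - ε) + ((11 / 20) ^ 2 - (1 / 2) ^ 2) / 2 * (10 / 9)) -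
        (1 / 9 + ε + 2 * (10 / 9) + 2) * q) +
      (q ^ 2 * ((13 / 20 - 11 / 20) * (1 / 2 - ε) + ((13 / 20) ^ 2 - (11 / 20) ^ 2) / 2 * 0) -
        (1 / 2 - ε + 2 * 0 + 2) * q) +
      (q ^ 2 * ((7 / 10 - 13 / 20) * (11 / 9 - ε) +
        ((7 / 10) ^ 2 - (13 / 20) ^ 2) / 2 * (-10 / 9)) -
        (11 / 9 - ε + 2 * (10 / 9) + 2) * q) +
      (q ^ 2 * ((9 / 10 - 7 / 10) * (2 - ε) + ((9 / 10) ^ 2 - (7 / 10) ^ 2) / 2 * (-20 / 9)) -
        (2 - ε + 2 * (20 / 9) + 2) * q) := by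
  have h1 : 0 ≤ ε * q ^ 2 := by positivity
  have h2 : 0 ≤ ε * q := by positivity
  linarith

theorem area {q : ℕ} [NeZero q] {ε : ℝ} (hε : 0 < ε) (hε1 : ε ≤ 1 / 20) :
    (109 / 360 - ε) * (q : ℝ) ^ 2 - 40 * q ≤
      ∑ j ∈ Finset.range q, (NN ε ((j : ℕ) : ZMod q) : ℝ) := by
  have hq : (0 : ℝ) < q := by exact_mod_cast Nat.pos_of_ne_zero (NeZero.ne q)
  have p1 := piece (q := q) ε 0 (2 / 5) (1 / 18) (10 / 9) le_rfl (by norm_num) (by norm_num)
    (fun v h0 h1 => N1 v hε1 h0 h1)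
  have p2 := piece (q := q) ε (2 / 5) (1 / 2 - ε) (1 / 2) 0 (by norm_num) (by linarith)
    (by linarith) (fun v h0 h1 => N2 v h0 h1)
  have p3 := piece (q := q) ε (1 / 2) (11 / 20) (-1 / 9 - ε) (10 / 9) (by norm_num) (by norm_num)
    (by norm_num) (fun v h0 h1 => N3 v hε hε1 h0 h1)
  have p4 := piece (q := q) ε (11 / 20) (13 / 20) (1 / 2 - ε) 0 (by norm_num) (by norm_num)
    (by norm_num) (fun v h0 h1 => N4 v hε hε1 h0 h1)
  have p5 := piece (q := q) ε (13 / 20) (7 / 10) (11 / 9 - ε) (-10 / 9) (by norm_num)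
    (by norm_num) (by norm_num) (fun v h0 h1 => N5 v hε hε1 h0 h1)
  have p6 := piece (q := q) ε (7 / 10) (9 / 10) (2 - ε) (-20 / 9) (by norm_num) (by norm_num)
    (by norm_num) (fun v h0 h1 => N6 v hε hε1 h0 h1)
  set F : ℕ → ℝ := fun j => (NN ε ((j : ℕ) : ZMod q) : ℝ) with hF
  have hF0 : ∀ j, 0 ≤ F j := fun j => Nat.cast_nonneg _
  have hc : ∀ a b : ℝ, a ≤ b → ⌈a * (q : ℝ)⌉₊ ≤ ⌈b * (q : ℝ)⌉₊ := fun a b h =>
    Nat.ceil_le_ceil (mul_le_mul_of_nonneg_right h hq.le)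
  have z0 : ⌈(0 : ℝ) * (q : ℝ)⌉₊ = 0 := by simp
  have c1 := hc 0 (2 / 5) (by norm_num)
  have c2 := hc (2 / 5) (1 / 2 - ε) (by linarith)
  have c2' := hc (1 / 2 - ε) (1 / 2) (by linarith)
  have c3 := hc (1 / 2) (11 / 20) (by norm_num)
  have c4 := hc (11 / 20) (13 / 20) (by norm_num)
  have c5 := hc (13 / 20) (7 / 10) (by norm_num)
  have c6 := hc (7 / 10) (9 / 10) (by norm_num)
  have c7 : ⌈(9 / 10 : ℝ) * (q : ℝ)⌉₊ ≤ q := by
    apply Nat.ceil_le.mpr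
    linarith
  have e1 := Finset.sum_Ico_consecutive F c1 c2
  have e2 := Finset.sum_Ico_consecutive F (c1.trans c2) c2'
  have e3 := Finset.sum_Ico_consecutive F ((c1.trans c2).trans c2') c3
  have e4 := Finset.sum_Ico_consecutive F (((c1.trans c2).trans c2').trans c3) c4
  have e5 := Finset.sum_Ico_consecutive F ((((c1.trans c2).trans c2').trans c3).trans c4) c5
  have e6 := Finset.sum_Ico_consecutive F (((((c1.trans c2).trans c2').trans c3).trans c4).trans c5) c6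
  have e7 := Finset.sum_Ico_consecutive F
    ((((((c1.trans c2).trans c2').trans c3).trans c4).trans c5).trans c6) c7
  have n1 : 0 ≤ ∑ j ∈ Finset.Ico ⌈(1 / 2 - ε) * (q : ℝ)⌉₊ ⌈(1 / 2 : ℝ) * (q : ℝ)⌉₊, F j :=
    Finset.sum_nonneg (fun j _ => hF0 j)
  have n2 : 0 ≤ ∑ j ∈ Finset.Ico ⌈(9 / 10 : ℝ) * (q : ℝ)⌉₊ q, F j :=
    Finset.sum_nonneg (fun j _ => hF0 j)
  rw [Finset.range_eq_Ico]
  rw [z0] at e7 e6 e5 e4 e3 e2 e1 p1
  have a1 : |(-1 / 9 - ε : ℝ)| = 1 / 9 + ε := by rw [abs_of_neg (by linarith)]; ring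
  have a2 : |(1 / 2 - ε : ℝ)| = 1 / 2 - ε := abs_of_pos (by linarith)
  have a3 : |(11 / 9 - ε : ℝ)| = 11 / 9 - ε := abs_of_pos (by linarith)
  have a4 : |(2 - ε : ℝ)| = 2 - ε := abs_of_pos (by linarith)
  have a5 : |(1 / 18 : ℝ)| = 1 / 18 := abs_of_pos (by norm_num)
  have a6 : |(10 / 9 : ℝ)| = 10 / 9 := abs_of_pos (by norm_num)
  have a7 : |(-10 / 9 : ℝ)| = 10 / 9 := by rw [abs_of_neg (by norm_num)]; ring
  have a8 : |(-20 / 9 : ℝ)| = 20 / 9 := by rw [abs_of_neg (by norm_num)]; ring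
  have a9 : |(1 / 2 : ℝ)| = 1 / 2 := abs_of_pos (by norm_num)
  rw [a5, a6] at p1
  rw [a9, abs_zero] at p2
  rw [a1, a6] at p3
  rw [a2, abs_zero] at p4
  rw [a3, a7] at p5
  rw [a4, a8] at p6
  have htot := area_arith (q := (q : ℝ)) hε hq
  linarith

end Vale.Agent.P057
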