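import Vale.Agent.P057.Blocks

namespace Vale.Agent.P057

open Finset Filter Topology

theorem eventually_log_le (a γ κ : ℝ) (hγ : 0 < γ) (hκ : 0 < κ) :
    ∀ᶠ X : ℝ in atTop, a + Real.logb 2 (γ * X + 1) ≤ κ * X := by
  have h1 : (fun X : ℝ => Real.log (γ * X + 1)) =o[atTop] (fun X : ℝ => γ * X + 1) := by
    have ht : Tendsto (fun X : ℝ => γ * X + 1) atTop atTop :=
      tendsto_atTop_add_const_right _ _ (Tendsto.const_mul_atTop hγ tendsto_id)
    exact Real.isLittleO_log_id_atTop.comp_tendsto ht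
  have hl2 : (0 : ℝ) < Real.log 2 := Real.log_pos (by norm_num)
  set ε : ℝ := κ * Real.log 2 / (4 * γ) with hε
  have hε0 : 0 < ε := by positivity
  have h2 := h1.def hε0
  filter_upwards [h2, eventually_ge_atTop (1 / γ), eventually_ge_atTop (2 * |a| / κ),
    eventually_ge_atTop 0] with X hX h3 h4 h5
  have h6 : 1 ≤ γ * X := by
    have := mul_le_mul_of_nonneg_left h3 hγ.le
    rwa [mul_one_div_cancel hγ.ne'] at this
  have h7 : Real.log (γ * X + 1) ≤ ε * (γ * X + 1) := by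
    have := hX
    rw [Real.norm_eq_abs, Real.norm_eq_abs, abs_of_nonneg (by linarith : (0 : ℝ) ≤ γ * X + 1)] at this
    exact (le_abs_self _).trans this
  have h8 : Real.logb 2 (γ * X + 1) ≤ κ / 2 * X := by
    rw [Real.logb, div_le_iff₀ hl2]
    calc Real.log (γ * X + 1) ≤ ε * (γ * X + 1) := h7
      _ ≤ ε * (2 * (γ * X)) := by
          apply mul_le_mul_of_nonneg_left _ hε0.le
          linarith
      _ = κ / 2 * X * Real.log 2 := by
          rw [hε]
          field_simp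
          ring
  have h9 : a ≤ κ / 2 * X := by
    have h10 : 2 * |a| ≤ X * κ := by rwa [div_le_iff₀ hκ] at h4
    have := le_abs_self a
    linarith
  linarith

set_option maxHeartbeats 2000000 in
theorem asymp (k m : ℕ) (hk : 2 ≤ k) (hm : 0 < m)
    (w : ℕ → ℝ) (hw : ∑ j ∈ Finset.range k, w j = 0)
    (hwpos : 0 < ∑ j ∈ Finset.range k, |w j|)
    (B c : ℝ) (hB : 0 ≤ B) (hc : 0 < c) (m0 : ℕ) (hm0 : 0 < m0) (μ : ℝ) (hμ0 : 0 < μ) (hμ1 : μ < 1)
    (H : ∃ Q0 : ℕ, ∀ q : ℕ, Q0 ≤ q → q.Prime →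
      ∃ (S : Finset (Fin m → ZMod q)) (f : (Fin m → ZMod q) → ℝ),
        (∀ x ∈ S, 0 ≤ f x ∧ f x ≤ B) ∧
        (∀ x s : Fin m → ZMod q, (∀ j < k, x + j • s ∈ S) → ∀ i,
          c * (((((m0 : ZMod q) * s i).valMinAbs : ℤ) : ℝ) / q) ^ 2
            ≤ ∑ j ∈ Finset.range k, w j * f (x + j • s)) ∧
        μ * (q : ℝ) ^ m ≤ (S.card : ℝ))
    (C : ℝ) (hC : 2 * Real.sqrt (2 * Real.logb 2 (1 / μ) / m) < C) :
    ∀ᶠ N : ℕ in atTop,
      (N : ℝ) * (2 : ℝ) ^ (-(C * Real.sqrt (Real.logb 2 N))) ≤ (r k N : ℝ) := by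
  obtain ⟨Q0, H⟩ := H
  have hmR : (0 : ℝ) < m := by exact_mod_cast hm
  set lam : ℝ := Real.logb 2 (1 / μ) with hlam
  have hlam0 : 0 < lam := by
    apply Real.logb_pos (by norm_num)
    rw [lt_div_iff₀ hμ0]
    linarith
  set Wt : ℝ := ∑ j ∈ Finset.range k, |w j| with hWt
  set A1 : ℝ := 16 * B * Wt / c + 1 with hA1
  have hA1pos : 1 ≤ A1 := by
    have : 0 ≤ 16 * B * Wt / c := by positivity
    linarith
  set C0 : ℝ := 2 * Real.sqrt (2 * lam / m) with hC0
  set γ : ℝ := Real.sqrt (2 / (m * lam)) with hγ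
  have hγ0 : 0 < γ := Real.sqrt_pos.mpr (by positivity)
  have hγlam : γ * lam = Real.sqrt (2 * lam / m) := by
    rw [hγ]
    have h1 : 2 * lam / m = (2 / (m * lam)) * lam ^ 2 := by
      field_simp
    rw [h1, Real.sqrt_mul' _ (by positivity), Real.sqrt_sq hlam0.le]
  have hγinv : 2 / (m * γ) = Real.sqrt (2 * lam / m) := by
    rw [← hγlam]
    have h2 : γ ^ 2 = 2 / (m * lam) := Real.sq_sqrt (by positivity)
    rw [div_eq_iff (by positivity)]
    have h3 : γ * lam * (m * γ) = γ ^ 2 * (m * lam) := by ring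
    rw [h3, h2]
    field_simp
  have hκ : 0 < C - C0 := by linarith
  have hev := eventually_log_le (lam + 2 + Real.logb 2 (2 * A1)) γ (C - C0) hγ0 hκ
  have hX : Tendsto (fun N : ℕ => Real.sqrt (Real.logb 2 N)) atTop atTop := by
    have h1 : Tendsto (fun N : ℕ => Real.logb 2 (N : ℝ)) atTop atTop :=
      (Real.tendsto_logb_atTop (by norm_num)).comp tendsto_natCast_atTop_atTop
    exact Real.tendsto_sqrt_atTop.comp h1
  filter_upwards [hX.eventually hev, eventually_ge_atTop 2] with N hN hN2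
  have hNpos : (0 : ℝ) < N := by
    have : 0 < N := by omega
    exact_mod_cast this
  have hN1 : (2 : ℝ) ≤ N := by exact_mod_cast hN2
  set L : ℝ := Real.logb 2 N with hL
  have hL1 : 1 ≤ L := by
    rw [hL, Real.le_logb_iff_rpow_le (by norm_num) hNpos]
    simpa using hN1
  set X : ℝ := Real.sqrt L with hXdef
  have hXX : X * X = L := Real.mul_self_sqrt (by linarith)
  have hX1 : 1 ≤ X := by
    rw [hXdef]
    exact Real.one_le_sqrt.mpr hL1
  have hX0 : 0 < X := by linarith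
  set n : ℕ := ⌈γ * X⌉₊ with hn
  have hn_lo : γ * X ≤ n := Nat.le_ceil _
  have hn_hi : (n : ℝ) ≤ γ * X + 1 := (Nat.ceil_lt_add_one (by positivity)).le
  have hnpos : 0 < n := Nat.ceil_pos.mpr (by positivity)
  have hnR : (0 : ℝ) < n := by exact_mod_cast hnpos
  have hn1 : (1 : ℝ) ≤ n := by exact_mod_cast hnpos
  set D : ℝ := (m : ℝ) * n with hD
  have hD0 : 0 < D := by positivity
  have hD1 : 1 ≤ D := by
    rw [hD]
    have h1 : (1 : ℝ) ≤ m := by exact_mod_cast hm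
    calc (1 : ℝ) = 1 * 1 := by ring
      _ ≤ m * n := by gcongr
  set η : ℝ := (2 * (N : ℝ)) ^ (-(1 / D)) with hη
  have hη0 : 0 < η := Real.rpow_pos_of_pos (by positivity) _
  have hη1 : η ≤ 1 := by
    apply Real.rpow_le_one_of_one_le_of_nonpos (by linarith)
    have : 0 < 1 / D := by positivity
    linarith
  obtain ⟨q, hqge, hqp⟩ := Nat.exists_infinite_primes (max (max Q0 (N + 1)) (max (m0 + 1) (⌈2 / η⌉₊ + 1)))
  have : Fact q.Prime := ⟨hqp⟩
  have hqQ0 : Q0 ≤ q := le_trans (le_trans (le_max_left _ _) (le_max_left _ _)) hqge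
  have hqN : N + 1 ≤ q := le_trans (le_trans (le_max_right _ _) (le_max_left _ _)) hqge
  have hqm0 : m0 + 1 ≤ q := le_trans (le_trans (le_max_left _ _) (le_max_right _ _)) hqge
  have hqη : ⌈2 / η⌉₊ + 1 ≤ q := le_trans (le_trans (le_max_right _ _) (le_max_right _ _)) hqge
  have hqη' : 2 / η ≤ q := by
    have h1 : 2 / η ≤ (⌈2 / η⌉₊ : ℝ) := Nat.le_ceil _
    have h2 : ((⌈2 / η⌉₊ : ℕ) : ℝ) ≤ q := by
      have : ⌈2 / η⌉₊ ≤ q := by omega
      exact_mod_cast this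
    linarith
  have hq0 : (0 : ℝ) < q := by exact_mod_cast hqp.pos
  obtain ⟨S, f, hfB, hAP, hScard⟩ := H q hqQ0 hqp
  have hu : (m0 : ZMod q) ≠ 0 := by
    intro h0
    rw [ZMod.natCast_eq_zero_iff] at h0
    exact absurd (Nat.le_of_dvd hm0 h0) (by omega)
  set ρ : ℝ := q * η / 4 with hρ
  have hρ0 : 0 ≤ ρ := by positivity
  set δ : ℝ := c * η ^ 2 / (16 * Wt) with hδ
  have hδ0 : 0 < δ := by positivity
  have hδρ : Wt * δ ≤ c * (ρ / q) ^ 2 := by
    rw [hδ, hρ]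
    have h1 : q * η / 4 / q = η / 4 := by field_simp
    rw [h1]
    apply le_of_eq
    field_simp
    ring
  have hbig : 2 * ((N : ℝ) * ((2 * ρ + 1) ^ m) ^ n) ≤ ((q : ℝ) ^ m) ^ n := by
    have h1 : 2 * ρ + 1 ≤ q * η := by
      have : 2 ≤ q * η := by rwa [div_le_iff₀ hη0] at hqη'
      rw [hρ]
      linarith
    have h2 : ((2 * ρ + 1) ^ m) ^ n ≤ ((q * η) ^ m) ^ n := by gcongr
    have h3 : ((q * η) ^ m) ^ n = ((q : ℝ) ^ m) ^ n * (η ^ m) ^ n := by
      rw [mul_pow, mul_pow]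
    have h4 : (η ^ m) ^ n = (2 * (N : ℝ))⁻¹ := by
      rw [← pow_mul, hη, ← Real.rpow_natCast, ← Real.rpow_mul (by positivity)]
      have : -(1 / D) * ((m * n : ℕ) : ℝ) = -1 := by
        rw [hD]
        push_cast
        field_simp
      rw [this, Real.rpow_neg_one]
    calc 2 * ((N : ℝ) * ((2 * ρ + 1) ^ m) ^ n) ≤ 2 * ((N : ℝ) * (((q : ℝ) ^ m) ^ n * (η ^ m) ^ n)) := by
          rw [← h3]
          gcongr
      _ = ((q : ℝ) ^ m) ^ n := by
          rw [h4]
          field_simp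
  have hmain := block_bound k m n q N hk hm (by omega) w hw S f B c hc hB
    (fun x hx => (hfB x hx).1) (fun x hx => (hfB x hx).2) (m0 : ZMod q) hu hAP δ ρ hδ0 hρ0 hδρ hbig
  have hr0 : (0 : ℝ) ≤ r k N := by positivity
  have hQ0' : 0 < ((q : ℝ) ^ m) ^ n := by positivity
  have hS : μ ^ n * ((q : ℝ) ^ m) ^ n ≤ (S.card : ℝ) ^ n := by
    rw [← mul_pow]
    gcongr
  have h20 : (N : ℝ) * μ ^ n ≤ 2 * (n * B / δ + 1) * (r k N : ℝ) := by
    have : ((q : ℝ) ^ m) ^ n * ((N : ℝ) * μ ^ n)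
        ≤ ((q : ℝ) ^ m) ^ n * (2 * (n * B / δ + 1) * (r k N : ℝ)) := by
      calc ((q : ℝ) ^ m) ^ n * ((N : ℝ) * μ ^ n) = N * (μ ^ n * ((q : ℝ) ^ m) ^ n) := by ring
        _ ≤ N * (S.card : ℝ) ^ n := by gcongr
        _ ≤ 2 * (((q : ℝ) ^ m) ^ n) * (n * B / δ + 1) * (r k N : ℝ) := hmain
        _ = ((q : ℝ) ^ m) ^ n * (2 * (n * B / δ + 1) * (r k N : ℝ)) := by ring
    exact le_of_mul_le_mul_left this hQ0'
  have h21 : n * B / δ + 1 ≤ A1 * n / η ^ 2 := by
    have h1 : n * B / δ = (16 * B * Wt / c) * n / η ^ 2 := by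
      rw [hδ]
      field_simp
    have h2 : 1 ≤ n / η ^ 2 := by
      rw [le_div_iff₀ (by positivity), one_mul]
      exact le_trans (pow_le_one₀ hη0.le hη1) hn1
    rw [h1, hA1]
    have h3 : (16 * B * Wt / c + 1) * n / η ^ 2 = (16 * B * Wt / c) * n / η ^ 2 + n / η ^ 2 := by ring
    rw [h3]
    linarith
  have h22 : (N : ℝ) * (μ ^ n * η ^ 2 / (2 * A1 * n)) ≤ (r k N : ℝ) := by
    have h1 : (N : ℝ) * μ ^ n ≤ 2 * (A1 * n / η ^ 2) * (r k N : ℝ) := by
      calc (N : ℝ) * μ ^ n ≤ 2 * (n * B / δ + 1) * (r k N : ℝ) := h20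
        _ ≤ 2 * (A1 * n / η ^ 2) * (r k N : ℝ) := by gcongr
    have h2 : (N : ℝ) * (μ ^ n * η ^ 2 / (2 * A1 * n)) = (N * μ ^ n) / (2 * (A1 * n / η ^ 2)) := by
      field_simp
    rw [h2, div_le_iff₀ (by positivity)]
    linarith
  refine le_trans ?_ h22
  apply mul_le_mul_of_nonneg_left _ hNpos.le
  -- compare exponents
  have hμpow : μ ^ n = (2 : ℝ) ^ (-(lam * n)) := by
    have h1 : μ = (2 : ℝ) ^ (-lam) := by
      rw [hlam, one_div, Real.logb_inv, neg_neg, Real.rpow_logb (by norm_num) (by norm_num) hμ0]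
    conv_lhs => rw [h1]
    rw [← Real.rpow_natCast, ← Real.rpow_mul (by norm_num)]
    congr 1
    ring
  have hηpow : η ^ 2 = (2 : ℝ) ^ (-(2 / D * (1 + L))) := by
    have h1 : 2 * (N : ℝ) = (2 : ℝ) ^ (1 + L) := by
      rw [Real.rpow_add (by norm_num), Real.rpow_one, hL,
        Real.rpow_logb (by norm_num) (by norm_num) hNpos]
    rw [hη, h1, ← Real.rpow_mul (by norm_num), ← Real.rpow_natCast, ← Real.rpow_mul (by norm_num)]
    congr 1
    push_cast
    ring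
  have hden : (2 * A1 * n) ≤ (2 : ℝ) ^ (Real.logb 2 (2 * A1) + Real.logb 2 (γ * X + 1)) := by
    rw [Real.rpow_add (by norm_num), Real.rpow_logb (by norm_num) (by norm_num) (by positivity),
      Real.rpow_logb (by norm_num) (by norm_num) (by positivity)]
    gcongr
  have hexp : -(C * X) ≤ -(lam * n) + -(2 / D * (1 + L))
      - (Real.logb 2 (2 * A1) + Real.logb 2 (γ * X + 1)) := by
    have e1 : lam * n ≤ C0 / 2 * X + lam := by
      calc lam * n ≤ lam * (γ * X + 1) := by gcongr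
        _ = (γ * lam) * X + lam := by ring
        _ = C0 / 2 * X + lam := by rw [hγlam, hC0]; ring
    have e2 : 2 / D * (1 + L) ≤ C0 / 2 * X + 2 := by
      have e3 : 2 / D * L ≤ C0 / 2 * X := by
        have : m * (γ * X) ≤ D := by
          rw [hD]
          gcongr
        calc 2 / D * L ≤ 2 / (m * (γ * X)) * L := by gcongr
          _ = 2 / (m * γ) * X := by
            rw [← hXX]
            field_simp
          _ = C0 / 2 * X := by rw [hγinv, hC0]; ring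
      have e4 : 2 / D * 1 ≤ 2 := by
        rw [mul_one, div_le_iff₀ hD0]
        linarith
      calc 2 / D * (1 + L) = 2 / D * 1 + 2 / D * L := by ring
        _ ≤ 2 + C0 / 2 * X := by linarith
        _ = C0 / 2 * X + 2 := by ring
    have e5 : lam + 2 + Real.logb 2 (2 * A1) + Real.logb 2 (γ * X + 1) ≤ (C - C0) * X := hN
    linarith
  calc (2 : ℝ) ^ (-(C * X)) ≤ (2 : ℝ) ^ (-(lam * n) + -(2 / D * (1 + L))
      - (Real.logb 2 (2 * A1) + Real.logb 2 (γ * X + 1))) :=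
        Real.rpow_le_rpow_of_exponent_le (by norm_num) hexp
    _ = μ ^ n * η ^ 2 / (2 : ℝ) ^ (Real.logb 2 (2 * A1) + Real.logb 2 (γ * X + 1)) := by
        rw [Real.rpow_sub (by norm_num), Real.rpow_add (by norm_num), hμpow, hηpow]
    _ ≤ μ ^ n * η ^ 2 / (2 * A1 * n) := by gcongr

end Vale.Agent.P057
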