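import Vale.Agent.P057.Count

namespace Vale.Agent.P057

open Finset

theorem average {V : Type*} [AddCommGroup V] [Fintype V] [DecidableEq V]
    (W Ball : Finset V) (N k : ℕ) (hk : 2 ≤ k)
    (hinj : ∀ d ∈ Finset.Icc 1 N, Function.Injective (fun a : V => d • a))
    (hball : ∀ x s : V, (∀ j < k, x + j • s ∈ W) → s ∈ Ball) :
    (N : ℝ) * Fintype.card V * W.card - N * N * W.card * Ball.card
      ≤ (Fintype.card V : ℝ) ^ 2 * (r k N : ℝ) := by
  classical
  let A : V × V → Finset ℕ := fun p => (Finset.Icc 1 N).filter (fun t => t • p.1 + p.2 ∈ W)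
  let T : V × V → Finset (ℕ × ℕ) := fun p =>
    ((Finset.Icc 1 N) ×ˢ (Finset.Icc 1 N)).filter
      (fun c => ∀ j < k, (c.1 + j * c.2) • p.1 + p.2 ∈ W)
  have hdel : ∀ p : V × V, ((A p).card : ℝ) - ((T p).card : ℝ) ≤ (r k N : ℝ) := by
    intro p
    apply deletion (by omega) (A p) (Finset.filter_subset _ _) (T p)
    intro a d hd h
    have h0 := h 0 (by omega)
    have h1 := h 1 (by omega)
    simp only [A, Finset.mem_filter, Finset.mem_Icc] at h0 h1
    simp only [T, Finset.mem_filter, Finset.mem_product, Finset.mem_Icc]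
    refine ⟨⟨?_, ?_⟩, ?_⟩
    · constructor <;> omega
    · constructor <;> omega
    · intro j hj
      have := h j hj
      simp only [A, Finset.mem_filter] at this
      exact this.2
  have hsumA : ∑ p : V × V, ((A p).card : ℝ) = (N : ℝ) * Fintype.card V * W.card := by
    have h1 : ∀ p : V × V, ((A p).card : ℝ)
        = ∑ t ∈ Finset.Icc 1 N, (if t • p.1 + p.2 ∈ W then (1 : ℝ) else 0) := by
      intro p
      simp only [A]
      rw [Finset.card_filter]
      push_cast
      rfl
    simp_rw [h1]
    rw [Finset.sum_comm]
    have h2 : ∀ t ∈ Finset.Icc 1 N,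
        ∑ p : V × V, (if t • p.1 + p.2 ∈ W then (1 : ℝ) else 0) = Fintype.card V * W.card := by
      intro t _
      rw [Fintype.sum_prod_type]
      have h3 : ∀ a : V, ∑ b : V, (if t • a + b ∈ W then (1 : ℝ) else 0) = W.card := by
        intro a
        rw [Fintype.sum_equiv (Equiv.addLeft (t • a))
          (fun b => if t • a + b ∈ W then (1 : ℝ) else 0)
          (fun b => if b ∈ W then (1 : ℝ) else 0)]
        · simp
        · intro b
          by_cases h : t • a + b ∈ W <;> simp [h]
      simp_rw [h3]
      simp
    rw [Finset.sum_congr rfl h2]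
    simp
    ring
  have hsumT : ∑ p : V × V, ((T p).card : ℝ) ≤ (N : ℝ) * N * (W.card * Ball.card) := by
    have h1 : ∀ p : V × V, ((T p).card : ℝ)
        = ∑ c ∈ (Finset.Icc 1 N) ×ˢ (Finset.Icc 1 N),
          (if (∀ j < k, (c.1 + j * c.2) • p.1 + p.2 ∈ W) then (1 : ℝ) else 0) := by
      intro p
      simp only [T]
      rw [Finset.card_filter]
      push_cast
      rfl
    simp_rw [h1]
    rw [Finset.sum_comm]
    have h2 : ∀ c ∈ (Finset.Icc 1 N) ×ˢ (Finset.Icc 1 N),
        ∑ p : V × V, (if (∀ j < k, (c.1 + j * c.2) • p.1 + p.2 ∈ W) then (1 : ℝ) else 0)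
          ≤ W.card * Ball.card := by
      rintro ⟨t, d⟩ hc
      simp only [Finset.mem_product] at hc
      have hd := hc.2
      rw [← Finset.sum_filter, Finset.sum_const, nsmul_eq_mul, mul_one]
      have : ((Finset.univ : Finset (V × V)).filter
          (fun p => ∀ j < k, (t + j * d) • p.1 + p.2 ∈ W)).card ≤ (W ×ˢ Ball).card := by
        apply Finset.card_le_card_of_injOn (fun p : V × V => (t • p.1 + p.2, d • p.1))
        · rintro ⟨a, b⟩ hp
          simp only [Finset.coe_filter, Finset.mem_univ, true_and, Set.mem_ofPred_eq] at hp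
          simp only [Finset.coe_product, Set.mem_prod, Finset.mem_coe]
          constructor
          · have := hp 0 (by omega)
            simpa using this
          · apply hball (t • a + b) (d • a)
            intro j hj
            have := hp j hj
            have h5 : (t + j * d) • a + b = t • a + b + j • (d • a) := by
              rw [add_smul, mul_smul]
              abel
            rw [h5] at this
            exact this
        · rintro ⟨a, b⟩ _ ⟨a', b'⟩ _ hab
          simp only [Prod.mk.injEq] at hab
          have ha : a = a' := hinj d hd hab.2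
          subst ha
          have hb := hab.1
          simp only [add_right_inj] at hb
          rw [hb]
      calc (((Finset.univ : Finset (V × V)).filter
          (fun p => ∀ j < k, (t + j * d) • p.1 + p.2 ∈ W)).card : ℝ)
            ≤ ((W ×ˢ Ball).card : ℝ) := by exact_mod_cast this
        _ = W.card * Ball.card := by rw [Finset.card_product]; push_cast; ring
    calc _ ≤ ∑ c ∈ (Finset.Icc 1 N) ×ˢ (Finset.Icc 1 N), ((W.card : ℝ) * Ball.card) :=
          Finset.sum_le_sum h2
      _ = (N : ℝ) * N * (W.card * Ball.card) := by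
          rw [Finset.sum_const, Finset.card_product]
          simp
  have htot : ∑ p : V × V, (((A p).card : ℝ) - ((T p).card : ℝ))
      ≤ ∑ _p : V × V, (r k N : ℝ) := Finset.sum_le_sum (fun p _ => hdel p)
  rw [Finset.sum_sub_distrib, hsumA, Finset.sum_const, nsmul_eq_mul] at htot
  have hcard : ((Finset.univ : Finset (V × V)).card : ℝ) = (Fintype.card V : ℝ) ^ 2 := by
    rw [Finset.card_univ, Fintype.card_prod]
    push_cast
    ring
  rw [hcard] at htot
  nlinarith [htot, hsumT]

end Vale.Agent.P057
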