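import Vale.Agent.P057.Average

namespace Vale.Agent.P057

open Finset

theorem smul_inj {q n m : ℕ} [Fact q.Prime] {d : ℕ} (hd : 0 < d) (hdq : d < q) :
    Function.Injective (fun a : Fin n → Fin m → ZMod q => d • a) := by
  intro a b hab
  funext i j
  have h1 := congrFun (congrFun hab i) j
  simp only [Pi.smul_apply, nsmul_eq_mul] at h1
  have hne : (d : ZMod q) ≠ 0 := by
    intro h0
    rw [ZMod.natCast_eq_zero_iff] at h0
    exact absurd (Nat.le_of_dvd hd h0) (by omega)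
  exact mul_left_cancel₀ hne h1

theorem block_bound (k m n q N : ℕ) [Fact q.Prime] (hk : 2 ≤ k) (hm : 0 < m)
    (hNq : N < q)
    (w : ℕ → ℝ) (hw : ∑ j ∈ Finset.range k, w j = 0)
    (S : Finset (Fin m → ZMod q)) (f : (Fin m → ZMod q) → ℝ) (B c : ℝ) (hc : 0 < c)
    (hB : 0 ≤ B)
    (hf0 : ∀ x ∈ S, 0 ≤ f x) (hfB : ∀ x ∈ S, f x ≤ B)
    (u : ZMod q) (hu : u ≠ 0)
    (hAP : ∀ x s : Fin m → ZMod q, (∀ j < k, x + j • s ∈ S) → ∀ i,
      c * ((((u * s i).valMinAbs : ℤ) : ℝ) / q) ^ 2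
        ≤ ∑ j ∈ Finset.range k, w j * f (x + j • s))
    (δ ρ : ℝ) (hδ : 0 < δ) (hρ : 0 ≤ ρ)
    (hδρ : (∑ j ∈ Finset.range k, |w j|) * δ ≤ c * (ρ / q) ^ 2)
    (hbig : 2 * (N * ((2 * ρ + 1) ^ m) ^ n) ≤ (((q : ℝ) ^ m) ^ n)) :
    (N : ℝ) * (S.card : ℝ) ^ n ≤ 2 * (((q : ℝ) ^ m) ^ n) * (n * B / δ + 1) * (r k N : ℝ) := by
  classical
  have hq0 : (0 : ℝ) < q := by
    have := (Fact.out : q.Prime).pos
    exact_mod_cast this
  let F : (Fin n → Fin m → ZMod q) → ℝ := fun v => ∑ b, f (v b)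
  let P : Finset (Fin n → Fin m → ZMod q) := Fintype.piFinset (fun _ => S)
  have hPcard : P.card = S.card ^ n := by
    simp [P, Fintype.card_piFinset]
  have hF0 : ∀ v ∈ P, 0 ≤ F v := by
    intro v hv
    apply Finset.sum_nonneg
    intro b _
    exact hf0 _ (Fintype.mem_piFinset.mp hv b)
  have hFB : ∀ v ∈ P, F v ≤ n * B := by
    intro v hv
    calc F v ≤ ∑ _b : Fin n, B := Finset.sum_le_sum (fun b _ => hfB _ (Fintype.mem_piFinset.mp hv b))
      _ = n * B := by simp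
  set K : ℕ := ⌊(n : ℝ) * B / δ⌋₊ + 1 with hK
  have hmaps : ∀ v ∈ P, ⌊F v / δ⌋₊ ∈ Finset.range K := by
    intro v hv
    rw [Finset.mem_range, hK, Nat.lt_succ_iff]
    apply Nat.floor_le_floor
    gcongr
    exact hFB v hv
  obtain ⟨κ, hκ, hκcard⟩ : ∃ κ ∈ Finset.range K,
      (P.card : ℝ) ≤ K * ((P.filter (fun v => ⌊F v / δ⌋₊ = κ)).card : ℝ) := by
    by_contra hcon
    push Not at hcon
    have h1 : P.card = ∑ κ ∈ Finset.range K, (P.filter (fun v => ⌊F v / δ⌋₊ = κ)).card :=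
      Finset.card_eq_sum_card_fiberwise hmaps
    have hK0 : (0 : ℝ) < K := by
      have : 0 < K := Nat.succ_pos _
      exact_mod_cast this
    have h2 : ∑ κ ∈ Finset.range K, ((K : ℝ) * ((P.filter (fun v => ⌊F v / δ⌋₊ = κ)).card : ℝ))
        < ∑ _κ ∈ Finset.range K, (P.card : ℝ) := by
      apply Finset.sum_lt_sum_of_nonempty
      · exact ⟨0, Finset.mem_range.mpr (Nat.succ_pos _)⟩
      · exact hcon
    rw [← Finset.mul_sum, Finset.sum_const, Finset.card_range, nsmul_eq_mul] at h2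
    have h3 : (P.card : ℝ) = ∑ κ ∈ Finset.range K, ((P.filter (fun v => ⌊F v / δ⌋₊ = κ)).card : ℝ) := by
      exact_mod_cast h1
    rw [← h3] at h2
    exact lt_irrefl _ h2
  set W := P.filter (fun v => ⌊F v / δ⌋₊ = κ) with hW
  have hWF : ∀ v ∈ W, κ * δ ≤ F v ∧ F v < (κ + 1) * δ := by
    intro v hv
    have hvP := (Finset.mem_filter.mp hv).1
    have hvk := (Finset.mem_filter.mp hv).2
    have h0 : 0 ≤ F v / δ := div_nonneg (hF0 v hvP) hδ.le
    have h1 := (Nat.floor_eq_iff h0).mp hvk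
    constructor
    · have := h1.1
      rwa [le_div_iff₀ hδ] at this
    · have := h1.2
      rwa [div_lt_iff₀ hδ] at this
  let Sm : Finset (ZMod q) := (Finset.univ : Finset (ZMod q)).filter
      (fun t => |(((u * t).valMinAbs : ℤ) : ℝ)| ≤ ρ)
  let Ball : Finset (Fin n → Fin m → ZMod q) :=
    Fintype.piFinset (fun _ => Fintype.piFinset (fun _ => Sm))
  have hBallcard : (Ball.card : ℝ) ≤ ((2 * ρ + 1) ^ m) ^ n := by
    have h1 : Ball.card = (Sm.card ^ m) ^ n := by
      simp [Ball, Fintype.card_piFinset]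
    rw [h1]
    push_cast
    have h2 : (Sm.card : ℝ) ≤ 2 * ρ + 1 := card_small u hu ρ hρ
    gcongr
  have hblock0 : ∀ x s : Fin m → ZMod q, (∀ j < k, x + j • s ∈ S) →
      0 ≤ ∑ j ∈ Finset.range k, w j * f (x + j • s) := by
    intro x s hx
    have := hAP x s hx ⟨0, hm⟩
    have h2 : 0 ≤ c * ((((u * s ⟨0, hm⟩).valMinAbs : ℤ) : ℝ) / q) ^ 2 := by positivity
    linarith
  have hball : ∀ x s : Fin n → Fin m → ZMod q, (∀ j < k, x + j • s ∈ W) → s ∈ Ball := by
    intro x s hx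
    have hxS : ∀ b, ∀ j < k, x b + j • s b ∈ S := by
      intro b j hj
      have h1 := (Finset.mem_filter.mp (hx j hj)).1
      have h2 := Fintype.mem_piFinset.mp h1 b
      simpa using h2
    have htot : ∑ b, ∑ j ∈ Finset.range k, w j * f (x b + j • s b)
        ≤ (∑ j ∈ Finset.range k, |w j|) * δ := by
      rw [Finset.sum_comm]
      have h3 : ∀ j ∈ Finset.range k, ∑ b, w j * f (x b + j • s b)
          = w j * (κ * δ) + w j * (F (x + j • s) - κ * δ) := by
        intro j _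
        rw [← Finset.mul_sum]
        have : F (x + j • s) = ∑ b, f (x b + j • s b) := rfl
        rw [this]
        ring
      rw [Finset.sum_congr rfl h3, Finset.sum_add_distrib, ← Finset.sum_mul, hw, zero_mul, zero_add,
        Finset.sum_mul]
      apply Finset.sum_le_sum
      intro j hj
      have hj' := Finset.mem_range.mp hj
      have h4 := hWF _ (hx j hj')
      have h5 : |F (x + j • s) - κ * δ| ≤ δ := by
        rw [abs_le]
        constructor <;> nlinarith [h4.1, h4.2]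
      calc w j * (F (x + j • s) - κ * δ) ≤ |w j * (F (x + j • s) - κ * δ)| := le_abs_self _
        _ = |w j| * |F (x + j • s) - κ * δ| := abs_mul _ _
        _ ≤ |w j| * δ := by gcongr
    rw [Fintype.mem_piFinset]
    intro b
    rw [Fintype.mem_piFinset]
    intro i
    simp only [Sm, Finset.mem_filter, Finset.mem_univ, true_and]
    have h6 : ∑ j ∈ Finset.range k, w j * f (x b + j • s b)
        ≤ ∑ b, ∑ j ∈ Finset.range k, w j * f (x b + j • s b) :=
      Finset.single_le_sum (f := fun b => ∑ j ∈ Finset.range k, w j * f (x b + j • s b))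
        (fun b _ => hblock0 _ _ (hxS b)) (Finset.mem_univ b)
    have h7 := hAP (x b) (s b) (hxS b) i
    have h8 : c * ((((u * s b i).valMinAbs : ℤ) : ℝ) / q) ^ 2 ≤ c * (ρ / q) ^ 2 := by
      linarith
    have h9 : ((((u * s b i).valMinAbs : ℤ) : ℝ) / q) ^ 2 ≤ (ρ / q) ^ 2 :=
      le_of_mul_le_mul_left h8 hc
    have h10 := sq_le_sq.mp h9
    rw [abs_div, abs_div, abs_of_pos hq0, abs_of_nonneg hρ] at h10
    rwa [div_le_div_iff_of_pos_right hq0] at h10
  have hav := average W Ball N k hk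
    (fun d hd => smul_inj (n := n) (m := m) (by have := (Finset.mem_Icc.mp hd).1; omega)
      (by have := (Finset.mem_Icc.mp hd).2; omega)) hball
  have hV : (Fintype.card (Fin n → Fin m → ZMod q) : ℝ) = ((q : ℝ) ^ m) ^ n := by
    rw [Fintype.card_fun, Fintype.card_fun, ZMod.card]
    simp
  rw [hV] at hav
  set Q : ℝ := ((q : ℝ) ^ m) ^ n with hQ
  have hQ0 : 0 < Q := by positivity
  have hW0 : (0 : ℝ) ≤ W.card := by positivity
  have hN0 : (0 : ℝ) ≤ N := by positivity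
  have hr0 : (0 : ℝ) ≤ r k N := by positivity
  have h11 : (N : ℝ) * Q * W.card ≤ 2 * (Q ^ 2 * (r k N : ℝ)) := by
    have h12 : (N : ℝ) * N * W.card * Ball.card ≤ (N : ℝ) * W.card * (Q / 2) := by
      have h13 : (N : ℝ) * Ball.card ≤ Q / 2 := by
        have : (N : ℝ) * Ball.card ≤ N * ((2 * ρ + 1) ^ m) ^ n := by gcongr
        linarith
      calc (N : ℝ) * N * W.card * Ball.card = (N : ℝ) * W.card * (N * Ball.card) := by ring
        _ ≤ (N : ℝ) * W.card * (Q / 2) := by gcongr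
    nlinarith [hav, h12]
  have h14 : (N : ℝ) * W.card ≤ 2 * Q * (r k N : ℝ) := by
    have : Q * ((N : ℝ) * W.card) ≤ Q * (2 * Q * (r k N : ℝ)) := by
      calc Q * ((N : ℝ) * W.card) = (N : ℝ) * Q * W.card := by ring
        _ ≤ 2 * (Q ^ 2 * (r k N : ℝ)) := h11
        _ = Q * (2 * Q * (r k N : ℝ)) := by ring
    exact le_of_mul_le_mul_left this hQ0
  have hKle : (K : ℝ) ≤ n * B / δ + 1 := by
    rw [hK]
    push_cast
    have := Nat.floor_le (show (0 : ℝ) ≤ (n : ℝ) * B / δ by positivity)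
    linarith
  have hPc : (P.card : ℝ) = (S.card : ℝ) ^ n := by rw [hPcard]; push_cast; rfl
  calc (N : ℝ) * (S.card : ℝ) ^ n = N * P.card := by rw [hPc]
    _ ≤ N * (K * W.card) := by gcongr
    _ = K * (N * W.card) := by ring
    _ ≤ K * (2 * Q * (r k N : ℝ)) := by gcongr
    _ ≤ (n * B / δ + 1) * (2 * Q * (r k N : ℝ)) := by gcongr
    _ = 2 * Q * (n * B / δ + 1) * (r k N : ℝ) := by ring

end Vale.Agent.P057
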