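import Vale.Agent.P057.Defs

namespace Vale.Agent.P057

open Finset

theorem le_r {k N : ℕ} {A : Finset ℕ} (hA : A ⊆ Finset.Icc 1 N) (h : ¬ HasAP k A) :
    A.card ≤ r k N := by
  unfold r
  apply le_csSup
  · refine ⟨N, ?_⟩
    rintro m ⟨B, hB, -, rfl⟩
    calc B.card ≤ (Finset.Icc 1 N).card := Finset.card_le_card hB
      _ = N := by simp
  · exact ⟨A, hA, h, rfl⟩

/-- deletion argument -/
theorem deletion {k N : ℕ} (hk : 1 ≤ k) (A : Finset ℕ) (hA : A ⊆ Finset.Icc 1 N)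
    (T : Finset (ℕ × ℕ))
    (hT : ∀ a d : ℕ, 0 < d → (∀ i < k, a + i * d ∈ A) → (a, d) ∈ T) :
    (A.card : ℝ) - (T.card : ℝ) ≤ (r k N : ℝ) := by
  classical
  set A' := A \ (T.image Prod.fst) with hA'
  have h1 : ¬ HasAP k A' := by
    rintro ⟨a, d, hd, h⟩
    have h0 : a ∈ A' := by
      have := h 0 (by omega)
      simpa using this
    have hmem : (a, d) ∈ T := hT a d hd (fun i hi => (Finset.mem_sdiff.mp (h i hi)).1)
    have : a ∈ T.image Prod.fst := Finset.mem_image.mpr ⟨(a, d), hmem, rfl⟩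
    exact (Finset.mem_sdiff.mp h0).2 this
  have h2 : A'.card ≤ r k N := le_r ((Finset.sdiff_subset).trans hA) h1
  have h3 : A.card ≤ A'.card + T.card := by
    have : A.card - (T.image Prod.fst).card ≤ A'.card := Finset.le_card_sdiff _ _
    have h4 : (T.image Prod.fst).card ≤ T.card := Finset.card_image_le
    omega
  have h2' : (A'.card : ℝ) ≤ (r k N : ℝ) := by exact_mod_cast h2
  have h3' : (A.card : ℝ) ≤ (A'.card : ℝ) + (T.card : ℝ) := by exact_mod_cast h3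
  linarith

theorem card_small {q : ℕ} [Fact q.Prime] (u : ZMod q) (hu : u ≠ 0) (ρ : ℝ) (hρ : 0 ≤ ρ) :
    (((Finset.univ : Finset (ZMod q)).filter
      (fun t => |(((u * t).valMinAbs : ℤ) : ℝ)| ≤ ρ)).card : ℝ) ≤ 2 * ρ + 1 := by
  classical
  have hinj : Set.InjOn (fun t : ZMod q => (u * t).valMinAbs)
      ((Finset.univ : Finset (ZMod q)).filter
      (fun t => |(((u * t).valMinAbs : ℤ) : ℝ)| ≤ ρ)) := by
    intro a _ b _ hab
    have h1 : u * a = u * b := ZMod.injective_valMinAbs hab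
    exact mul_left_cancel₀ hu h1
  have hsub : ((Finset.univ : Finset (ZMod q)).filter
      (fun t => |(((u * t).valMinAbs : ℤ) : ℝ)| ≤ ρ)).image
        (fun t : ZMod q => (u * t).valMinAbs) ⊆ Finset.Icc (-⌊ρ⌋) ⌊ρ⌋ := by
    intro z hz
    obtain ⟨t, ht, rfl⟩ := Finset.mem_image.mp hz
    have ht' := (Finset.mem_filter.mp ht).2
    rw [abs_le] at ht'
    rw [Finset.mem_Icc]
    constructor
    · have : -(u * t).valMinAbs ≤ ⌊ρ⌋ := by
        rw [Int.le_floor]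
        push_cast
        linarith [ht'.1]
      omega
    · rw [Int.le_floor]
      exact ht'.2
  have hcard := Finset.card_le_card hsub
  rw [Finset.card_image_of_injOn hinj] at hcard
  have h2 : (Finset.Icc (-⌊ρ⌋) ⌊ρ⌋).card = (2 * ⌊ρ⌋ + 1).toNat := by
    rw [Int.card_Icc]
    congr 1
    ring
  rw [h2] at hcard
  have hfl : (0 : ℤ) ≤ ⌊ρ⌋ := Int.floor_nonneg.mpr hρ
  have h3 : (((2 * ⌊ρ⌋ + 1).toNat : ℕ) : ℝ) = 2 * (⌊ρ⌋ : ℝ) + 1 := by
    have : ((2 * ⌊ρ⌋ + 1).toNat : ℤ) = 2 * ⌊ρ⌋ + 1 := Int.toNat_of_nonneg (by omega)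
    have h4 : (((2 * ⌊ρ⌋ + 1).toNat : ℤ) : ℝ) = ((2 * ⌊ρ⌋ + 1 : ℤ) : ℝ) := by rw [this]
    push_cast at h4
    exact h4
  calc (_ : ℝ) ≤ (((2 * ⌊ρ⌋ + 1).toNat : ℕ) : ℝ) := by exact_mod_cast hcard
    _ = 2 * (⌊ρ⌋ : ℝ) + 1 := h3
    _ ≤ 2 * ρ + 1 := by linarith [Int.floor_le ρ]

end Vale.Agent.P057
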