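import Mathlib

namespace Vale.Agent.P057

def HasAP (k : ℕ) (A : Finset ℕ) : Prop :=
  ∃ a d : ℕ, 0 < d ∧ ∀ i < k, a + i * d ∈ A

noncomputable def r (k N : ℕ) : ℕ :=
  sSup {m : ℕ | ∃ A : Finset ℕ, A ⊆ Finset.Icc 1 N ∧ ¬ HasAP k A ∧ A.card = m}

end Vale.Agent.P057
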