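import Vale.Agent.P057.TorusSet

namespace Vale.Agent.P057

open Finset

theorem count_interval {q : ℕ} [NeZero q] (σ A B : ℝ) (hA : 0 ≤ A) (hB : B ≤ 1) :
    (q : ℝ) * (B - A) - 1 ≤
      ((univ.filter (fun w : ZMod q => A ≤ Int.fract (X w - σ) ∧ Int.fract (X w - σ) < B)).card : ℝ) := by
  classical
  have hq : (0 : ℝ) < q := by exact_mod_cast Nat.pos_of_ne_zero (NeZero.ne q)
  set I : Finset ℤ := Finset.Ico ⌈(q : ℝ) * (A + σ)⌉ ⌈(q : ℝ) * (B + σ)⌉ with hI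
  have hmem : ∀ m ∈ I, (q : ℝ) * (A + σ) ≤ m ∧ (m : ℝ) < q * (B + σ) := by
    intro m hm
    rw [hI, Finset.mem_Ico] at hm
    exact ⟨Int.ceil_le.mp hm.1, Int.lt_ceil.mp hm.2⟩
  have hinj : Set.InjOn (fun m : ℤ => (m : ZMod q)) (I : Set ℤ) := by
    intro m hm m' hm' h
    obtain ⟨h1, h2⟩ := hmem m hm
    obtain ⟨h3, h4⟩ := hmem m' hm'
    simp only at h
    rw [ZMod.intCast_eq_intCast_iff_dvd_sub] at h
    obtain ⟨k, hk⟩ := h
    have hk' : (m' : ℝ) - m = q * k := by exact_mod_cast hk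
    have h5 : (q : ℝ) * (B - A) ≤ q * 1 := mul_le_mul_of_nonneg_left (by linarith) hq.le
    have hk1 : (k : ℝ) < 1 := by
      have : (q : ℝ) * k < q * 1 := by rw [← hk']; linarith
      exact lt_of_mul_lt_mul_left this hq.le
    have hk2 : (-1 : ℝ) < k := by
      have : (q : ℝ) * (-1) < q * k := by rw [← hk']; linarith
      exact lt_of_mul_lt_mul_left this hq.le
    have hk0 := int_zero_of hk1 hk2
    rw [hk0] at hk
    simp at hk
    omega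
  have hsub : I.image (fun m : ℤ => (m : ZMod q)) ⊆
      univ.filter (fun w : ZMod q => A ≤ Int.fract (X w - σ) ∧ Int.fract (X w - σ) < B) := by
    intro w hw
    rw [Finset.mem_image] at hw
    obtain ⟨m, hm, rfl⟩ := hw
    obtain ⟨h1, h2⟩ := hmem m hm
    have hX : ∃ k : ℤ, X (m : ZMod q) = (m : ℝ) / q - k := by
      refine ⟨m / q, ?_⟩
      have h3 : (((m : ZMod q).val : ℕ) : ℤ) = m % q := ZMod.val_intCast m
      have h4 := Int.emod_add_mul_ediv m q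
      have h5 : (((m : ZMod q).val : ℕ) : ℤ) + q * (m / q) = m := by rw [h3]; exact h4
      have h6 : (((m : ZMod q).val : ℕ) : ℝ) + q * ((m / q : ℤ) : ℝ) = m := by exact_mod_cast h5
      simp only [X]
      rw [eq_sub_iff_add_eq, div_add' _ _ _ hq.ne', ← h6]
      ring
    obtain ⟨k, hk⟩ := hX
    have e : Int.fract (X (m : ZMod q) - σ) = (m : ℝ) / q - σ := by
      rw [hk]
      have h3 : (m : ℝ) / q - k - σ = ((m : ℝ) / q - σ) - k := by ring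
      rw [h3, Int.fract_sub_intCast]
      apply Int.fract_eq_self.mpr
      constructor
      · rw [sub_nonneg, le_div_iff₀ hq]
        have : (q : ℝ) * σ ≤ q * (A + σ) := mul_le_mul_of_nonneg_left (by linarith) hq.le
        linarith
      · rw [sub_lt_iff_lt_add, div_lt_iff₀ hq]
        have : (q : ℝ) * (B + σ) ≤ q * (1 + σ) := mul_le_mul_of_nonneg_left (by linarith) hq.le
        linarith
    rw [Finset.mem_filter]
    refine ⟨Finset.mem_univ _, ?_, ?_⟩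
    · rw [e, le_sub_iff_add_le, le_div_iff₀ hq]
      linarith
    · rw [e, sub_lt_iff_lt_add, div_lt_iff₀ hq]
      linarith
  have h1 := Finset.card_le_card hsub
  rw [Finset.card_image_of_injOn hinj] at h1
  have h2 : (q : ℝ) * (B - A) - 1 ≤ (I.card : ℝ) := by
    rw [hI, Int.card_Ico]
    have h3 : ((⌈(q : ℝ) * (B + σ)⌉ - ⌈(q : ℝ) * (A + σ)⌉ : ℤ) : ℝ) ≤
        (((⌈(q : ℝ) * (B + σ)⌉ - ⌈(q : ℝ) * (A + σ)⌉).toNat : ℕ) : ℝ) := by
      exact_mod_cast Int.self_le_toNat _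
    refine le_trans ?_ h3
    push_cast
    have h4 := Int.le_ceil ((q : ℝ) * (B + σ))
    have h5 := (Int.ceil_lt_add_one ((q : ℝ) * (A + σ))).le
    linarith
  have h3 : (I.card : ℝ) ≤ ((univ.filter (fun w : ZMod q => A ≤ Int.fract (X w - σ) ∧
      Int.fract (X w - σ) < B)).card : ℝ) := by exact_mod_cast h1
  linarith

theorem sum_range_cast (n : ℕ) : ∑ j ∈ Finset.range n, (j : ℝ) = n * (n - 1) / 2 := by
  induction n with
  | zero => simp
  | succ n ih =>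
    rw [Finset.sum_range_succ, ih]
    push_cast
    ring

theorem sum_lin (q : ℕ) (hq : 0 < q) (a b c0 c1 : ℝ) (ha : 0 ≤ a) (hab : a ≤ b) (hb : b ≤ 1) :
    (q : ℝ) * ((b - a) * c0 + (b ^ 2 - a ^ 2) / 2 * c1) - (|c0| + 2 * |c1|) ≤
      ∑ j ∈ Finset.Ico ⌈a * q⌉₊ ⌈b * q⌉₊, (c0 + c1 * ((j : ℝ) / q)) := by
  have hqR : (0 : ℝ) < q := by exact_mod_cast hq
  have hq1 : (1 : ℝ) ≤ q := by exact_mod_cast hq
  have hJL : ⌈a * q⌉₊ ≤ ⌈b * q⌉₊ := Nat.ceil_le_ceil (by nlinarith)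
  have hJ1 : a * q ≤ (⌈a * q⌉₊ : ℝ) := Nat.le_ceil _
  have hJ2 : (⌈a * q⌉₊ : ℝ) < a * q + 1 := Nat.ceil_lt_add_one (by positivity)
  have hb0 : 0 ≤ b := le_trans ha hab
  have hL1 : b * q ≤ (⌈b * q⌉₊ : ℝ) := Nat.le_ceil _
  have hL2 : (⌈b * q⌉₊ : ℝ) < b * q + 1 := Nat.ceil_lt_add_one (by positivity)
  set J := ⌈a * q⌉₊ with hJ
  set L := ⌈b * q⌉₊ with hL
  have e : ∑ j ∈ Finset.Ico J L, (c0 + c1 * ((j : ℝ) / q)) =
      c0 * ((L : ℝ) - J) + c1 * ((L * (L - 1) - J * (J - 1)) / (2 * q)) := by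
    rw [Finset.sum_add_distrib, Finset.sum_const, Nat.card_Ico, nsmul_eq_mul,
      ← Finset.mul_sum, ← Finset.sum_div, Finset.sum_Ico_eq_sub _ hJL, sum_range_cast,
      sum_range_cast, Nat.cast_sub hJL]
    field_simp
  rw [e]
  have h1 : |(L : ℝ) - J - (b - a) * q| ≤ 1 := by
    rw [abs_le]
    constructor <;> linarith
  have hsq : ∀ (c : ℝ) (N : ℕ), 0 ≤ c → c ≤ 1 → c * q ≤ N → (N : ℝ) < c * q + 1 →
      |(N : ℝ) * ((N : ℝ) - 1) - c ^ 2 * (q : ℝ) ^ 2| ≤ 2 * (q : ℝ) := by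
    intro c N hc0 hc1 h1 h2
    have hcq : c * q ≤ q := by nlinarith
    have hcq0 : 0 ≤ c * q := by positivity
    have e1 : c ^ 2 * (q : ℝ) ^ 2 = (c * q) ^ 2 := by ring
    rw [e1]
    set y := c * (q : ℝ) with hy
    obtain ⟨β, hβ⟩ : ∃ β, (N : ℝ) = y + β := ⟨N - y, by ring⟩
    have hβ0 : 0 ≤ β := by linarith
    have hβ1 : β ≤ 1 := by linarith
    rw [hβ, abs_le]
    constructor
    · nlinarith [mul_nonneg hcq0 hβ0]
    · nlinarith [mul_nonneg hcq0 hβ0, mul_nonneg hcq0 (by linarith : 0 ≤ 1 - β)]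
  have h2 := hsq a J ha (by linarith) hJ1 hJ2
  have h3 := hsq b L hb0 hb hL1 hL2
  have h4 : |((L : ℝ) * (L - 1) - J * (J - 1)) / (2 * q) - (b ^ 2 - a ^ 2) / 2 * q| ≤ 2 := by
    have e2 : ((L : ℝ) * (L - 1) - J * (J - 1)) / (2 * q) - (b ^ 2 - a ^ 2) / 2 * q =
        (((L : ℝ) * (L - 1) - b ^ 2 * q ^ 2) - (J * (J - 1) - a ^ 2 * q ^ 2)) / (2 * q) := by
      field_simp
      ring
    rw [e2, abs_div, abs_of_pos (by positivity : (0 : ℝ) < 2 * q), div_le_iff₀ (by positivity)]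
    have h7 := abs_sub ((L : ℝ) * ((L : ℝ) - 1) - b ^ 2 * (q : ℝ) ^ 2)
      ((J : ℝ) * ((J : ℝ) - 1) - a ^ 2 * (q : ℝ) ^ 2)
    linarith
  have h5 : -|c0| ≤ c0 * ((L : ℝ) - J - (b - a) * q) := by
    have := neg_abs_le (c0 * ((L : ℝ) - J - (b - a) * q))
    rw [abs_mul] at this
    nlinarith [abs_nonneg c0]
  have h6 : -(2 * |c1|) ≤ c1 * (((L : ℝ) * (L - 1) - J * (J - 1)) / (2 * q) - (b ^ 2 - a ^ 2) / 2 * q) := by
    have := neg_abs_le (c1 * (((L : ℝ) * (L - 1) - J * (J - 1)) / (2 * q) - (b ^ 2 - a ^ 2) / 2 * q))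
    rw [abs_mul] at this
    nlinarith [abs_nonneg c1]
  linarith

end Vale.Agent.P057
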