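import Vale.Agent.P057.Area
import Vale.Agent.P057.Asymp

namespace Vale.Agent.P057

open Finset Filter Topology

theorem r_mono {k l N : ℕ} (h : k ≤ l) : r k N ≤ r l N := by
  unfold r
  apply csSup_le_csSup'
  · refine ⟨N, ?_⟩
    rintro m ⟨B, hB, -, rfl⟩
    calc B.card ≤ (Finset.Icc 1 N).card := Finset.card_le_card hB
      _ = N := by simp
  · rintro m ⟨B, hB, hn, rfl⟩
    refine ⟨B, hB, ?_, rfl⟩
    rintro ⟨a, d, hd, hA⟩
    exact hn ⟨a, d, hd, fun i hi => hA i (lt_of_lt_of_le hi h)⟩

theorem card_S {q : ℕ} [NeZero q] (ε : ℝ) (S : Finset (Fin 2 → ZMod q))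
    (hS : ∀ x, Reg ε (X (x 0)) (TT (x 0) (x 1)) → x ∈ S) :
    ∑ j ∈ Finset.range q, (NN ε ((j : ℕ) : ZMod q) : ℝ) ≤ (S.card : ℝ) := by
  classical
  have h1 : S.card = ∑ v : ZMod q, (S.filter (fun x => x 0 = v)).card :=
    Finset.card_eq_sum_card_fiberwise (fun x _ => Finset.mem_coe.mpr (Finset.mem_univ (x 0)))
  have h2 : ∀ v : ZMod q, NN ε v ≤ (S.filter (fun x => x 0 = v)).card := by
    intro v
    unfold NN
    apply Finset.card_le_card_of_injOn (fun w => ![v, w])
    · intro w hw
      rw [Finset.mem_coe, Finset.mem_filter] at hw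
      rw [Finset.mem_coe, Finset.mem_filter]
      refine ⟨hS _ ?_, by simp⟩
      simpa using hw.2
    · intro a _ b _ hab
      have := congrFun hab 1
      simpa using this
  have h3 : ∑ j ∈ Finset.range q, (NN ε ((j : ℕ) : ZMod q) : ℝ) =
      ∑ v : ZMod q, (NN ε v : ℝ) := by
    apply Finset.sum_nbij' (fun j : ℕ => (j : ZMod q)) (fun v : ZMod q => v.val)
    · intro j _
      exact Finset.mem_univ _
    · intro v _
      exact Finset.mem_range.mpr (ZMod.val_lt v)
    · intro j hj
      exact ZMod.val_natCast_of_lt (Finset.mem_range.mp hj)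
    · intro v _
      exact ZMod.natCast_zmod_val v
    · intro j _
      rfl
  rw [h3, h1]
  push_cast
  apply Finset.sum_le_sum
  intro v _
  exact_mod_cast h2 v

def ww (j : ℕ) : ℝ := if j = 1 then -2 else 1

theorem main3 (C : ℝ) (hC : 2 * Real.sqrt (Real.logb 2 (360 / 109)) < C) :
    ∀ᶠ N : ℕ in atTop,
      (N : ℝ) * (2 : ℝ) ^ (-(C * Real.sqrt (Real.logb 2 N))) ≤ (r 3 N : ℝ) := by
  obtain ⟨μ, hμ0, hμ1, hμC⟩ : ∃ μ : ℝ, 0 < μ ∧ μ < 109 / 360 ∧
      2 * Real.sqrt (Real.logb 2 (1 / μ)) < C := by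
    have hcont : ContinuousAt (fun μ : ℝ => 2 * Real.sqrt (Real.logb 2 (1 / μ))) (109 / 360) := by
      apply ContinuousAt.mul continuousAt_const
      apply Real.continuous_sqrt.continuousAt.comp
      have h1 : ContinuousAt (fun μ : ℝ => 1 / μ) (109 / 360) :=
        continuousAt_const.div continuousAt_id (by norm_num)
      exact (h1.log (by norm_num)).div_const _
    have hlt : (fun μ : ℝ => 2 * Real.sqrt (Real.logb 2 (1 / μ))) (109 / 360) < C := by
      have : (1 : ℝ) / (109 / 360) = 360 / 109 := by norm_num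
      simp only [this]
      exact hC
    have hev := hcont.eventually (gt_mem_nhds hlt)
    rw [Metric.eventually_nhds_iff] at hev
    obtain ⟨δ, hδ, hev⟩ := hev
    refine ⟨109 / 360 - min (δ / 2) (1 / 10), ?_, ?_, ?_⟩
    · have := min_le_right (δ / 2) (1 / 10 : ℝ)
      linarith
    · have : 0 < min (δ / 2) (1 / 10 : ℝ) := by positivity
      linarith
    · apply hev
      rw [Real.dist_eq]
      have h1 : 0 < min (δ / 2) (1 / 10 : ℝ) := by positivity
      have h2 := min_le_left (δ / 2) (1 / 10 : ℝ)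
      rw [abs_lt]
      constructor <;> linarith
  set δ : ℝ := 109 / 360 - μ with hδ
  have hδ0 : 0 < δ := by linarith
  set ε : ℝ := min (1 / 20) (δ / 2) with hε
  have hε0 : 0 < ε := by positivity
  have hε1 : ε ≤ 1 / 20 := min_le_left _ _
  have hε2 : ε ≤ δ / 2 := min_le_right _ _
  set K : ℝ := 3 / ε ^ 2 with hK
  have hK2 : 2 ≤ K := by
    rw [hK, le_div_iff₀ (by positivity)]
    nlinarith
  refine asymp 3 2 (by norm_num) (by norm_num) ww ?_ ?_ (K + 1) (1 / 4) (by linarith)
    (by norm_num) 2 (by norm_num) μ hμ0 (by linarith) ?_ C ?_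
  · simp [ww, Finset.sum_range_succ]
    norm_num
  · simp [ww, Finset.sum_range_succ]
    norm_num
  · refine ⟨⌈80 / δ⌉₊ + 1, ?_⟩
    intro q hq hqp
    have : Fact q.Prime := ⟨hqp⟩
    have hq0 : (0 : ℝ) < q := by exact_mod_cast hqp.pos
    classical
    refine ⟨univ.filter (fun x : Fin 2 → ZMod q => Reg ε (X (x 0)) (TT (x 0) (x 1))),
      fun x => ff K (X (x 0)) (TT (x 0) (x 1)), ?_, ?_, ?_⟩
    · intro x hx
      rw [Finset.mem_filter] at hx
      obtain ⟨h1, h2, h3, h4⟩ := reg_bounds hε0 hx.2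
      simp only [ff]
      constructor
      · positivity
      · have h5 : X (x 0) ^ 2 ≤ 1 := by nlinarith
        have h6 : K * X (x 0) ^ 2 ≤ K * 1 := mul_le_mul_of_nonneg_left h5 (by linarith)
        linarith
    · intro x s hx
      have h0 := hx 0 (by norm_num)
      have h1 := hx 1 (by norm_num)
      have h2 := hx 2 (by norm_num)
      rw [Finset.mem_filter] at h0 h1 h2
      have e : ∀ (j : ℕ) (i : Fin 2), (x + j • s) i = x i + j * s i := by
        intro j i
        simp
      have e0 : ∀ i : Fin 2, (x + 0 • s) i = x i := by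
        intro i; simp
      have e1 : ∀ i : Fin 2, (x + 1 • s) i = x i + s i := by
        intro i; simp
      have e2 : ∀ i : Fin 2, (x + 2 • s) i = x i + 2 * s i := by
        intro i; simp
      have h0' := h0.2
      have h1' := h1.2
      have h2' := h2.2
      rw [e0, e0] at h0'
      rw [e1, e1] at h1'
      rw [e2, e2] at h2'
      have key := torus_ap hε0 le_rfl hK2 (x 0) (s 0) (x 1) (s 1) h0' h1' h2'
      intro i
      rw [Finset.sum_range_succ, Finset.sum_range_succ, Finset.sum_range_one]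
      simp only [ww]
      rw [e0, e0, e1, e1, e2, e2]
      push_cast
      fin_cases i
      · refine le_trans key.1 (le_of_eq ?_)
        norm_num
        ring
      · refine le_trans key.2 (le_of_eq ?_)
        norm_num
        ring
    · have hS := card_S (q := q) ε (univ.filter
        (fun x : Fin 2 → ZMod q => Reg ε (X (x 0)) (TT (x 0) (x 1)))) (by
          intro x hx
          rw [Finset.mem_filter]
          exact ⟨Finset.mem_univ _, hx⟩)
      have hA := area (q := q) hε0 hε1
      refine le_trans ?_ (le_trans hA hS)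
      have hq80 : 80 / δ ≤ q := by
        have h1 : 80 / δ ≤ (⌈80 / δ⌉₊ : ℝ) := Nat.le_ceil _
        have h2 : ((⌈80 / δ⌉₊ : ℕ) : ℝ) ≤ q := by
          have : ⌈80 / δ⌉₊ ≤ q := by omega
          exact_mod_cast this
        linarith
      rw [div_le_iff₀ hδ0] at hq80
      have h3 : 80 * (q : ℝ) ≤ q * δ * q := mul_le_mul_of_nonneg_right hq80 hq0.le
      have h4 : ε * (q : ℝ) ^ 2 ≤ δ / 2 * (q : ℝ) ^ 2 :=
        mul_le_mul_of_nonneg_right hε2 (by positivity)
      have h5 : μ = 109 / 360 - δ := by rw [hδ]; ring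
      rw [h5]
      nlinarith
  · have e : (2 * Real.logb 2 (1 / μ) / ((2 : ℕ) : ℝ)) = Real.logb 2 (1 / μ) := by
      push_cast
      ring
    rw [e]
    exact hμC

theorem main_all (k : ℕ) (hk : 3 ≤ k) (C : ℝ)
    (hC : 2 * Real.sqrt (Real.logb 2 (360 / 109)) < C) :
    ∀ᶠ N : ℕ in atTop,
      (N : ℝ) * (2 : ℝ) ^ (-(C * Real.sqrt (Real.logb 2 N))) ≤ (r k N : ℝ) := by
  filter_upwards [main3 C hC] with N hN
  refine hN.trans ?_
  exact_mod_cast r_mono hk

end Vale.Agent.P057
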