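import Mathlib

namespace Vale.Agent.P057

def Reg (ε x t : ℝ) : Prop :=
  (0 ≤ x ∧ x < 1 / 2 - ε ∧ 0 ≤ t ∧ t < 1 / 2 ∧ t < 1 / 18 + 10 / 9 * x) ∨
  (1 / 2 ≤ x ∧ x < 9 / 10 ∧ 0 ≤ t ∧ (10 * (x - 1 / 2) - 1) / 9 ≤ t ∧ t < 1 / 3) ∨
  (1 / 2 ≤ x ∧ x < 9 / 10 ∧ 1 / 2 ≤ t ∧ (10 * (x - 1 / 2) - 1) / 9 ≤ t - 1 / 2 ∧
    t - 1 / 2 < 1 / 3 ∧ t - 1 / 2 < (1 + 10 * (x - 1 / 2)) / 9 ∧
    (t - 1 / 2 < 1 / 6 - ε ∨ t - 1 / 2 < 1 / 6 - ε + 2 * ((10 * (x - 1 / 2) - 1) / 9)))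

noncomputable def gf (x t : ℝ) : ℝ :=
  if x < 1 / 2 then t ^ 2 else if t < 1 / 2 then (1 / 3 - t) ^ 2 else (1 / 3 - (t - 1 / 2)) ^ 2

noncomputable def ff (K x t : ℝ) : ℝ := K * x ^ 2 + gf x t

theorem gf1 {x t : ℝ} (hx : x < 1 / 2) : gf x t = t ^ 2 := by
  simp only [gf, if_pos hx]

theorem gf2 {x t : ℝ} (hx : 1 / 2 ≤ x) (ht : t < 1 / 2) : gf x t = (1 / 3 - t) ^ 2 := by
  simp only [gf, if_neg (not_lt.mpr hx), if_pos ht]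

theorem gf3 {x t : ℝ} (hx : 1 / 2 ≤ x) (ht : 1 / 2 ≤ t) :
    gf x t = (1 / 3 - (t - 1 / 2)) ^ 2 := by
  simp only [gf, if_neg (not_lt.mpr hx), if_neg (not_lt.mpr ht)]

theorem reg_bounds {ε x t : ℝ} (hε : 0 < ε) (h : Reg ε x t) :
    0 ≤ x ∧ x < 1 ∧ 0 ≤ gf x t ∧ gf x t ≤ 1 / 4 := by
  rcases h with ⟨h1, h2, h3, h4, h5⟩ | ⟨h1, h2, h3, h4, h5⟩ | ⟨h1, h2, h3, h4, h5, h6, h7⟩
  · rw [gf1 (by linarith)]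
    refine ⟨h1, by linarith, by positivity, by nlinarith⟩
  · rw [gf2 h1 (by linarith)]
    refine ⟨by linarith, by linarith, by positivity, by nlinarith⟩
  · rw [gf3 h1 h3]
    refine ⟨by linarith, by linarith, by positivity, by nlinarith⟩

theorem reg_neg {ε : ℝ} (hε : 0 < ε) {x0 x1 x2 t0 t1 t2 : ℝ} (n : ℤ)
    (h0 : Reg ε x0 t0) (h1 : Reg ε x1 t1) (h2 : Reg ε x2 t2)
    (hx : x0 + x2 - 2 * x1 = -1) (ht : t0 + t2 - 2 * t1 = n + 1 / 3) : False := by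
  have hx0 := (reg_bounds hε h0).1
  have hx2 := (reg_bounds hε h2).1
  have key : ∃ m : ℤ, ∃ θ : ℝ, t0 + t2 = 2 * θ + 1 / 3 + m ∧ 0 ≤ θ ∧
      (10 * (x1 - 1 / 2) - 1) / 9 ≤ θ ∧ θ < 1 / 3 := by
    rcases h1 with ⟨a1, a2, a3, a4, a5⟩ | ⟨a1, a2, a3, a4, a5⟩ | ⟨a1, a2, a3, a4, a5, a6, a7⟩
    · linarith
    · exact ⟨n, t1, by linarith, a3, a4, a5⟩
    · exact ⟨n + 1, t1 - 1 / 2, by push_cast; linarith, by linarith, a4, a5⟩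
  obtain ⟨m, θ, e1, e2, e3, e4⟩ := key
  have hm : m = 0 := by
    rcases h0 with ⟨a1, a2, a3, a4, a5⟩ | ⟨a1, a2, a3, a4, a5⟩ | ⟨a1, a2, a3, a4, a5, a6, a7⟩ <;>
    rcases h2 with ⟨b1, b2, b3, b4, b5⟩ | ⟨b1, b2, b3, b4, b5⟩ | ⟨b1, b2, b3, b4, b5, b6, b7⟩ <;>
    first
    | linarith
    | (have l1 : (m : ℝ) < 1 := by linarith
       have l2 : (-1 : ℝ) < m := by linarith
       have l3 : m < 1 := by exact_mod_cast l1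
       have l4 : -1 < m := by exact_mod_cast l2
       omega)
  subst hm
  simp only [Int.cast_zero, add_zero] at e1
  rcases h0 with ⟨a1, a2, a3, a4, a5⟩ | ⟨a1, a2, a3, a4, a5⟩ | ⟨a1, a2, a3, a4, a5, a6, a7⟩ <;>
  rcases h2 with ⟨b1, b2, b3, b4, b5⟩ | ⟨b1, b2, b3, b4, b5⟩ | ⟨b1, b2, b3, b4, b5, b6, b7⟩ <;>
  linarith

theorem reg_pos {ε K : ℝ} (hε : 0 < ε) (hK : 2 ≤ K) {x0 x1 x2 t0 t1 t2 : ℝ}
    (h0 : Reg ε x0 t0) (h1 : Reg ε x1 t1) (h2 : Reg ε x2 t2)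
    (hx : x0 + x2 - 2 * x1 = 1) :
    1 / 8 ≤ ff K x0 t0 + ff K x2 t2 - 2 * ff K x1 t1 := by
  obtain ⟨a1, a2, a3, a4⟩ := reg_bounds hε h0
  obtain ⟨b1, b2, b3, b4⟩ := reg_bounds hε h1
  obtain ⟨c1, c2, c3, c4⟩ := reg_bounds hε h2
  have e : x1 = (x0 + x2 - 1) / 2 := by linarith
  have h : 1 / 2 ≤ x0 ^ 2 + x2 ^ 2 - 2 * x1 ^ 2 := by
    rw [e]
    nlinarith [sq_nonneg (x0 - x2)]
  simp only [ff]
  nlinarith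

theorem reg_far {ε K : ℝ} (hε : 0 < ε) (hK : 3 / ε ^ 2 ≤ K) {x0 x1 x2 t0 t1 t2 : ℝ}
    (h0 : Reg ε x0 t0) (h1 : Reg ε x1 t1) (h2 : Reg ε x2 t2)
    (hx : x0 + x2 - 2 * x1 = 0) (hfar : ε / 3 ≤ |x1 - x0|) :
    1 / 8 ≤ ff K x0 t0 + ff K x2 t2 - 2 * ff K x1 t1 := by
  obtain ⟨a1, a2, a3, a4⟩ := reg_bounds hε h0
  obtain ⟨b1, b2, b3, b4⟩ := reg_bounds hε h1
  obtain ⟨c1, c2, c3, c4⟩ := reg_bounds hε h2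
  have e : x2 = 2 * x1 - x0 := by linarith
  have h5 : (ε / 3) ^ 2 ≤ (x1 - x0) ^ 2 := by
    rw [← sq_abs (x1 - x0)]
    exact pow_le_pow_left₀ (by positivity) hfar 2
  have h6 : x0 ^ 2 + x2 ^ 2 - 2 * x1 ^ 2 = 2 * (x1 - x0) ^ 2 := by
    rw [e]; ring
  have h7 : 3 ≤ K * ε ^ 2 := by
    rwa [div_le_iff₀ (by positivity)] at hK
  have h8 : 0 ≤ K := le_trans (by positivity) hK
  have h9 : K * (ε / 3) ^ 2 ≤ K * (x1 - x0) ^ 2 := mul_le_mul_of_nonneg_left h5 h8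
  have h10 : K * x0 ^ 2 + K * x2 ^ 2 - 2 * (K * x1 ^ 2) = 2 * (K * (x1 - x0) ^ 2) := by
    linear_combination K * h6
  simp only [ff]
  nlinarith

theorem int_zero_of {m : ℤ} (h1 : (m : ℝ) < 1) (h2 : (-1 : ℝ) < m) : m = 0 := by
  have l3 : m < 1 := by exact_mod_cast h1
  have l4 : -1 < m := by exact_mod_cast h2
  omega

theorem near_aux {K x0 x1 x2 g0 g1 g2 θ0 θ1 θ2 t0 t1 : ℝ} (hK : 1 ≤ K) (k : ℤ)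
    (hx : x0 + x2 - 2 * x1 = 0) (e : θ0 + θ2 - 2 * θ1 = 0) (r : ℝ)
    (h0 : g0 = (r - θ0) ^ 2) (h1 : g1 = (r - θ1) ^ 2) (h2 : g2 = (r - θ2) ^ 2)
    (hk : 2 * (t1 - t0) + k = 2 * (θ1 - θ0)) :
    2 * (x1 - x0) ^ 2 + (2 * (t1 - t0) + k) ^ 2 / 2 ≤
      (K * x0 ^ 2 + g0) + (K * x2 ^ 2 + g2) - 2 * (K * x1 ^ 2 + g1) := by
  have e1 : x2 = 2 * x1 - x0 := by linarith
  have e2 : θ2 = 2 * θ1 - θ0 := by linarith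
  rw [hk, h0, h1, h2, e1, e2]
  nlinarith [sq_nonneg (x1 - x0)]

theorem near_half {θ0 θ1 θ2 : ℝ} (e : θ0 + θ2 - 2 * θ1 = -1 / 2) (h : θ1 < 1 / 3) :
    1 / 8 ≤ (1 / 3 - θ0) ^ 2 + (1 / 3 - θ2) ^ 2 - 2 * (1 / 3 - θ1) ^ 2 := by
  have e1 : θ1 = (θ0 + θ2) / 2 + 1 / 4 := by linarith
  subst e1
  nlinarith [sq_nonneg (θ0 - θ2)]

theorem rep2 {ε x t : ℝ} (hε : 0 < ε) (h : Reg ε x t) (hx : 1 / 2 ≤ x) :
    ∃ (θ : ℝ) (e : ℤ), (e = 0 ∨ e = 1) ∧ t = θ + e / 2 ∧ 0 ≤ θ ∧ θ < 1 / 3 ∧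
      (10 * (x - 1 / 2) - 1) / 9 ≤ θ ∧ gf x t = (1 / 3 - θ) ^ 2 ∧
      (e = 1 → (θ < 1 / 6 - ε ∨ θ < 1 / 6 - ε + 2 * ((10 * (x - 1 / 2) - 1) / 9))) := by
  rcases h with ⟨a1, a2, a3, a4, a5⟩ | ⟨a1, a2, a3, a4, a5⟩ | ⟨a1, a2, a3, a4, a5, a6, a7⟩
  · exfalso; linarith
  · exact ⟨t, 0, Or.inl rfl, by simp, a3, a5, a4, gf2 a1 (by linarith), by simp⟩
  · exact ⟨t - 1 / 2, 1, Or.inr rfl, by push_cast; ring, by linarith, a5, a4, gf3 a1 a3,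
      fun _ => a7⟩

theorem near2 {ε K : ℝ} (hε : 0 < ε) (hK : 1 ≤ K)
    {x0 x1 x2 t0 t1 t2 : ℝ} (n : ℤ)
    (h0 : Reg ε x0 t0) (h1 : Reg ε x1 t1) (h2 : Reg ε x2 t2)
    (hx : x0 + x2 - 2 * x1 = 0) (ht : t0 + t2 - 2 * t1 = n) (hnear : |x1 - x0| < ε / 3)
    (hx0 : 1 / 2 ≤ x0) (hx1 : 1 / 2 ≤ x1) (hx2 : 1 / 2 ≤ x2) :
    1 / 8 ≤ ff K x0 t0 + ff K x2 t2 - 2 * ff K x1 t1 ∨
    ∃ k : ℤ, 2 * (x1 - x0) ^ 2 + (2 * (t1 - t0) + k) ^ 2 / 2 ≤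
      ff K x0 t0 + ff K x2 t2 - 2 * ff K x1 t1 := by
  obtain ⟨d1, d2⟩ := abs_lt.mp hnear
  have hpos : 0 ≤ K * x0 ^ 2 + K * x2 ^ 2 - 2 * (K * x1 ^ 2) := by
    have e1 : x2 = 2 * x1 - x0 := by linarith
    rw [e1]
    nlinarith [sq_nonneg (x1 - x0)]
  obtain ⟨θ0, e0, a1, a2, a3, a4, a5, a6, a7⟩ := rep2 hε h0 hx0
  obtain ⟨θ1, e1, b1, b2, b3, b4, b5, b6, b7⟩ := rep2 hε h1 hx1
  obtain ⟨θ2, e2, c1, c2, c3, c4, c5, c6, c7⟩ := rep2 hε h2 hx2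
  have hm : 2 * (θ0 + θ2 - 2 * θ1) = ((2 * n - (e0 + e2) + 2 * e1 : ℤ) : ℝ) := by
    push_cast; linarith
  have hm1 : 2 * n - (e0 + e2) + 2 * e1 < 2 := by
    have : ((2 * n - (e0 + e2) + 2 * e1 : ℤ) : ℝ) < 2 := by rw [← hm]; linarith
    exact_mod_cast this
  have hm2 : -2 < 2 * n - (e0 + e2) + 2 * e1 := by
    have : (-2 : ℝ) < ((2 * n - (e0 + e2) + 2 * e1 : ℤ) : ℝ) := by rw [← hm]; linarith
    exact_mod_cast this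
  have hm3 : 2 * n - (e0 + e2) + 2 * e1 = -1 ∨ 2 * n - (e0 + e2) + 2 * e1 = 0 ∨
      2 * n - (e0 + e2) + 2 * e1 = 1 := by omega
  rcases hm3 with hm3 | hm3 | hm3
  · left
    rw [hm3] at hm
    push_cast at hm
    have := near_half (θ0 := θ0) (θ1 := θ1) (θ2 := θ2) (by linarith) b4
    simp only [ff]
    rw [a6, b6, c6]
    linarith
  · right
    rw [hm3] at hm
    push_cast at hm
    refine ⟨e0 - e1, ?_⟩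
    simp only [ff]
    exact near_aux (θ0 := θ0) (θ1 := θ1) (θ2 := θ2) hK (e0 - e1) hx (by linarith) (1 / 3)
      a6 b6 c6 (by push_cast; rw [a2, b2]; ring)
  · exfalso
    rw [hm3] at hm
    push_cast at hm
    have he : e0 = 1 ∨ e2 = 1 := by omega
    rcases he with he | he
    · rcases a7 he with h | h <;> linarith
    · rcases c7 he with h | h <;> linarith

theorem near1 {ε K : ℝ} (_hε : 0 < ε) (hK : 1 ≤ K)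
    {x0 x1 x2 t0 t1 t2 : ℝ} (n : ℤ)
    (h0 : Reg ε x0 t0) (h1 : Reg ε x1 t1) (h2 : Reg ε x2 t2)
    (hx : x0 + x2 - 2 * x1 = 0) (ht : t0 + t2 - 2 * t1 = n)
    (hx0 : x0 < 1 / 2) (hx1 : x1 < 1 / 2) (hx2 : x2 < 1 / 2) :
    ∃ k : ℤ, 2 * (x1 - x0) ^ 2 + (2 * (t1 - t0) + k) ^ 2 / 2 ≤
      ff K x0 t0 + ff K x2 t2 - 2 * ff K x1 t1 := by
  have hb : ∀ x t, Reg ε x t → x < 1 / 2 → 0 ≤ t ∧ t < 1 / 2 := by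
    intro x t h hx
    rcases h with ⟨a1, a2, a3, a4, a5⟩ | ⟨a1, a2, a3, a4, a5⟩ | ⟨a1, a2, a3, a4, a5, a6, a7⟩
    · exact ⟨a3, a4⟩
    · exfalso; linarith
    · exfalso; linarith
  obtain ⟨a1, a2⟩ := hb _ _ h0 hx0
  obtain ⟨b1, b2⟩ := hb _ _ h1 hx1
  obtain ⟨c1, c2⟩ := hb _ _ h2 hx2
  have hn : n = 0 := int_zero_of (by linarith) (by linarith)
  subst hn
  refine ⟨0, ?_⟩
  simp only [ff]
  exact near_aux (θ0 := t0) (θ1 := t1) (θ2 := t2) hK 0 hx (by simpa using ht) 0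
    (by rw [gf1 (by linarith)]; ring) (by rw [gf1 (by linarith)]; ring)
    (by rw [gf1 (by linarith)]; ring) (by push_cast; ring)

theorem reg_near {ε K : ℝ} (hε : 0 < ε) (hK : 1 ≤ K)
    {x0 x1 x2 t0 t1 t2 : ℝ} (n : ℤ)
    (h0 : Reg ε x0 t0) (h1 : Reg ε x1 t1) (h2 : Reg ε x2 t2)
    (hx : x0 + x2 - 2 * x1 = 0) (ht : t0 + t2 - 2 * t1 = n) (hnear : |x1 - x0| < ε / 3) :
    1 / 8 ≤ ff K x0 t0 + ff K x2 t2 - 2 * ff K x1 t1 ∨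
    ∃ k : ℤ, 2 * (x1 - x0) ^ 2 + (2 * (t1 - t0) + k) ^ 2 / 2 ≤
      ff K x0 t0 + ff K x2 t2 - 2 * ff K x1 t1 := by
  obtain ⟨d1, d2⟩ := abs_lt.mp hnear
  have hgap : ∀ x t, Reg ε x t → x < 1 / 2 - ε ∨ 1 / 2 ≤ x := by
    intro x t h
    rcases h with ⟨a1, a2, a3, a4, a5⟩ | ⟨a1, a2, a3, a4, a5⟩ | ⟨a1, a2, a3, a4, a5, a6, a7⟩
    · exact Or.inl a2
    · exact Or.inr a1
    · exact Or.inr a1
  rcases hgap _ _ h0 with g0 | g0 <;> rcases hgap _ _ h1 with g1 | g1 <;>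
  rcases hgap _ _ h2 with g2 | g2 <;> try (exfalso; linarith)
  · exact Or.inr (near1 hε hK n h0 h1 h2 hx ht (by linarith) (by linarith) (by linarith))
  · exact near2 hε hK n h0 h1 h2 hx ht hnear g0 g1 g2

theorem reg_main {ε K : ℝ} (hε : 0 < ε) (hK : 3 / ε ^ 2 ≤ K) (hK2 : 2 ≤ K)
    {x0 x1 x2 t0 t1 t2 : ℝ} (δ n : ℤ)
    (h0 : Reg ε x0 t0) (h1 : Reg ε x1 t1) (h2 : Reg ε x2 t2)
    (hx : x0 + x2 - 2 * x1 = δ) (ht : t0 + t2 - 2 * t1 = n - δ / 3) :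
    1 / 8 ≤ ff K x0 t0 + ff K x2 t2 - 2 * ff K x1 t1 ∨
    ∃ k : ℤ, 2 * (x1 - x0) ^ 2 + (2 * (t1 - t0) + k) ^ 2 / 2 ≤
      ff K x0 t0 + ff K x2 t2 - 2 * ff K x1 t1 := by
  obtain ⟨a1, a2, -, -⟩ := reg_bounds hε h0
  obtain ⟨b1, b2, -, -⟩ := reg_bounds hε h1
  obtain ⟨c1, c2, -, -⟩ := reg_bounds hε h2
  have hδ1 : δ < 2 := by
    have : (δ : ℝ) < 2 := by linarith
    exact_mod_cast this
  have hδ2 : -2 < δ := by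
    have : (-2 : ℝ) < δ := by linarith
    exact_mod_cast this
  have hδ : δ = -1 ∨ δ = 0 ∨ δ = 1 := by omega
  rcases hδ with rfl | rfl | rfl
  · exfalso
    push_cast at hx ht
    exact reg_neg hε n h0 h1 h2 hx (by linarith)
  · push_cast at hx ht
    by_cases hf : ε / 3 ≤ |x1 - x0|
    · exact Or.inl (reg_far hε hK h0 h1 h2 hx hf)
    · exact reg_near hε (by linarith) n h0 h1 h2 hx (by linarith) (not_le.mp hf)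
  · push_cast at hx ht
    exact Or.inl (reg_pos hε hK2 h0 h1 h2 hx)

end Vale.Agent.P057
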