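import Vale.Agent.P057.Region

namespace Vale.Agent.P057

open Finset

noncomputable def X {q : ℕ} (v : ZMod q) : ℝ := (v.val : ℝ) / q

noncomputable def TT {q : ℕ} (v w : ZMod q) : ℝ := Int.fract (X w - X v / 3)

theorem X_ap {q : ℕ} [NeZero q] (v s : ZMod q) :
    ∃ δ : ℤ, X v + X (v + 2 * s) - 2 * X (v + s) = δ := by
  have h : (((v.val : ℤ) + ((v + 2 * s).val : ℤ) - 2 * ((v + s).val : ℤ) : ℤ) : ZMod q) = 0 := by
    push_cast
    rw [ZMod.natCast_zmod_val, ZMod.natCast_zmod_val, ZMod.natCast_zmod_val]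
    ring
  rw [ZMod.intCast_zmod_eq_zero_iff_dvd] at h
  obtain ⟨δ, hδ⟩ := h
  refine ⟨δ, ?_⟩
  have hq : (q : ℝ) ≠ 0 := by exact_mod_cast NeZero.ne q
  have h2 : ((v.val : ℝ) + ((v + 2 * s).val : ℝ) - 2 * ((v + s).val : ℝ)) = (q : ℝ) * δ := by
    exact_mod_cast hδ
  simp only [X]
  field_simp
  linarith

theorem vma_le {q : ℕ} [NeZero q] (z : ZMod q) (m : ℤ) (h : (m : ZMod q) = z) :
    |((z.valMinAbs : ℤ) : ℝ)| ≤ |(m : ℝ)| := by
  have h1 := ZMod.natAbs_min_of_le_div_two q z.valMinAbs m (by rw [ZMod.coe_valMinAbs, h])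
    (ZMod.natAbs_valMinAbs_le z)
  have h2 : |z.valMinAbs| ≤ |m| := by
    rw [Int.abs_eq_natAbs, Int.abs_eq_natAbs]
    exact_mod_cast h1
  exact_mod_cast h2

theorem vma_half {q : ℕ} [NeZero q] (z : ZMod q) :
    (((z.valMinAbs : ℤ) : ℝ) / q) ^ 2 ≤ 1 / 4 := by
  have h1 := ZMod.natAbs_valMinAbs_le z
  have h2 : (z.valMinAbs.natAbs : ℝ) ≤ q / 2 := by
    have h3 : z.valMinAbs.natAbs * 2 ≤ q := by omega
    have h4 : (z.valMinAbs.natAbs : ℝ) * 2 ≤ q := by exact_mod_cast h3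
    linarith
  have hq : (0 : ℝ) < q := by exact_mod_cast Nat.pos_of_ne_zero (NeZero.ne q)
  have h5 : |((z.valMinAbs : ℤ) : ℝ)| ≤ q / 2 := by
    rw [Nat.cast_natAbs, Int.cast_abs] at h2
    exact h2
  rw [div_pow, ← sq_abs, div_le_iff₀ (by positivity)]
  nlinarith [abs_nonneg ((z.valMinAbs : ℤ) : ℝ)]

theorem vma_frac {q : ℕ} [NeZero q] (a b : ZMod q) (k : ℤ) :
    (((((2 : ZMod q) * (b - a)).valMinAbs : ℤ) : ℝ) / q) ^ 2 ≤ (2 * (X b - X a) + k) ^ 2 := by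
  have hq : (0 : ℝ) < q := by exact_mod_cast Nat.pos_of_ne_zero (NeZero.ne q)
  have h := vma_le ((2 : ZMod q) * (b - a)) (2 * ((b.val : ℤ) - (a.val : ℤ)) + q * k) (by
    push_cast
    rw [ZMod.natCast_zmod_val, ZMod.natCast_zmod_val, ZMod.natCast_self]
    ring)
  have h2 : (2 * (X b - X a) + k) = ((2 * ((b.val : ℤ) - (a.val : ℤ)) + q * k : ℤ) : ℝ) / q := by
    simp only [X]
    push_cast
    field_simp
  rw [h2, div_pow, div_pow]
  apply div_le_div_of_nonneg_right _ (by positivity)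
  rw [← sq_abs, ← sq_abs (((2 * ((b.val : ℤ) - (a.val : ℤ)) + q * k : ℤ) : ℝ))]
  exact pow_le_pow_left₀ (abs_nonneg _) h 2

theorem torus_ap {q : ℕ} [NeZero q] {ε K : ℝ} (hε : 0 < ε) (hK : 3 / ε ^ 2 ≤ K) (hK2 : 2 ≤ K)
    (v s w u : ZMod q) (h0 : Reg ε (X v) (TT v w)) (h1 : Reg ε (X (v + s)) (TT (v + s) (w + u)))
    (h2 : Reg ε (X (v + 2 * s)) (TT (v + 2 * s) (w + 2 * u))) :
    (1 / 4 * (((((2 : ZMod q) * s).valMinAbs : ℤ) : ℝ) / q) ^ 2 ≤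
      ff K (X v) (TT v w) + ff K (X (v + 2 * s)) (TT (v + 2 * s) (w + 2 * u)) -
        2 * ff K (X (v + s)) (TT (v + s) (w + u))) ∧
    (1 / 4 * (((((2 : ZMod q) * u).valMinAbs : ℤ) : ℝ) / q) ^ 2 ≤
      ff K (X v) (TT v w) + ff K (X (v + 2 * s)) (TT (v + 2 * s) (w + 2 * u)) -
        2 * ff K (X (v + s)) (TT (v + s) (w + u))) := by
  obtain ⟨δ, hδ⟩ := X_ap v s
  obtain ⟨δ', hδ'⟩ := X_ap w u
  set x0 := X v with hx0
  set x1 := X (v + s) with hx1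
  set x2 := X (v + 2 * s) with hx2
  have ht : TT v w + TT (v + 2 * s) (w + 2 * u) - 2 * TT (v + s) (w + u) =
      ((δ' - ⌊X w - X v / 3⌋ - ⌊X (w + 2 * u) - X (v + 2 * s) / 3⌋ +
        2 * ⌊X (w + u) - X (v + s) / 3⌋ : ℤ) : ℝ) - δ / 3 := by
    simp only [TT, Int.fract]
    push_cast
    rw [← hδ, ← hδ']
    ring
  have hmain := reg_main hε hK hK2 δ _ h0 h1 h2 hδ ht
  have hs1 := vma_half ((2 : ZMod q) * s)
  have hs2 := vma_half ((2 : ZMod q) * u)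
  rcases hmain with hmain | ⟨k, hmain⟩
  · constructor <;> linarith
  · have hf1 := vma_frac v (v + s) 0
    have hf2 := vma_frac w (w + u) (2 * ⌊X w - X v / 3⌋ - 2 * ⌊X (w + u) - X (v + s) / 3⌋ + k)
    rw [add_sub_cancel_left] at hf1 hf2
    have e2 : 2 * (X (w + u) - X w) + ((2 * ⌊X w - X v / 3⌋ -
        2 * ⌊X (w + u) - X (v + s) / 3⌋ + k : ℤ) : ℝ) =
        (2 * (TT (v + s) (w + u) - TT v w) + k) + 2 / 3 * (x1 - x0) := by
      simp only [TT, Int.fract]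
      push_cast
      ring
    rw [e2] at hf2
    simp only [Int.cast_zero, add_zero] at hf1
    rw [← hx0, ← hx1] at hf1
    constructor
    · nlinarith [sq_nonneg (2 * (TT (v + s) (w + u) - TT v w) + (k : ℝ)), sq_nonneg (x1 - x0)]
    · nlinarith [sq_nonneg (2 * (TT (v + s) (w + u) - TT v w) + (k : ℝ) - 2 / 3 * (x1 - x0)),
        sq_nonneg (x1 - x0), sq_nonneg (2 * (TT (v + s) (w + u) - TT v w) + (k : ℝ))]

end Vale.Agent.P057
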